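import Vale.Agent.P166.NW.Gap.Levels

/-! The regularisation changes pattern value and conjugate path uniformly little. -/

noncomputable section

open MeasureTheory ProbabilityTheory Filter
open scoped Topology

namespace Vale.Agent.P166.NW

open Vale.Agent.P157.Parisi Gap

namespace Gap

lemma patValue_eq_sm {r : ℕ} (f : ℝ → ℝ) (m : Fin r → ℝ) (q : Fin (r + 1) → ℝ) :
    patValue f m q = sm (q 0) (level m q (topMean f (1 - q (Fin.last r))) 0) 0 := by
  simp only [patValue, sm, zero_add]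

lemma slope_eq_sm {r : ℕ} (f : ℝ → ℝ) (m : Fin r → ℝ) (q : Fin (r + 1) → ℝ) (p : Fin (r + 1)) :
    Vale.Agent.P157.Parisi.slope f m q p = sm (q 0) (down m q (topMean f (1 - q (Fin.last r))) p
      fun x => deriv (level m q (topMean f (1 - q (Fin.last r))) p) x ^ 2) 0 := by
  simp only [Vale.Agent.P157.Parisi.slope, sm, zero_add]

lemma sm_one_zero (G : ℝ → ℝ) : sm 1 G 0 = ∫ z, G z ∂gaussianReal 0 1 := by simp [sm]

variable {θ ε : ℝ}

lemma pat_bound (hθ : 0 < θ) (he : 0 < ε) (he1 : ε < 1) (ξ : Path) :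
    patValue (quadPot θ) ξ.m ξ.q ≤ patValue (epsPot θ ε) ξ.m ξ.q ∧
      patValue (epsPot θ ε) ξ.m ξ.q ≤ patValue (quadPot θ) ξ.m ξ.q +
        ∫ z, hpot θ ε z ∂gaussianReal 0 1 := by
  obtain ⟨r, m, q, hP⟩ := ξ
  obtain ⟨A, hf⟩ := exists_smooth hθ he he1
  show patValue (quadPot θ) m q ≤ patValue (epsPot θ ε) m q ∧ patValue (epsPot θ ε) m q ≤ _
  rw [patValue_eq_sm, patValue_eq_sm]
  have p1 : PG (level m q (topMean (epsPot θ ε) (1 - q (Fin.last r))) 0) :=
    pg_of_cb (cb_level (hf.cb_top _) hP.pos q 0)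
  have p0 : PG (level m q (topMean (quadPot θ) (1 - q (Fin.last r))) 0) := by
    rw [level_quad hθ hP.pos hP.mono hP.le_one 0]
    simpa only [div_eq_mul_inv] using
      (PG.const _).sub ((PG.ident.sq.const_mul _).mul (PG.const (2 : ℝ)⁻¹))
  have hg := level_gap hθ he he1 hP.pos hP.mono hP.le_one 0
  have hh := pg_hpot hθ he he1
  refine ⟨sm_mono p0 p1 (fun y => sub_nonneg.1 (hg y).1) _ _, ?_⟩
  refine (sm_mono p1 (p0.add (hh.sm (1 - q 0))) (fun y => sub_le_iff_le_add'.1 (hg y).2) _ _).trans_eq ?_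
  rw [sm_add p0 (hh.sm _), sm_sm hh hP.nonneg
    (sub_nonneg.2 ((hP.mono (Fin.le_last _)).trans hP.le_one)), add_sub_cancel, sm_one_zero]

lemma slope_bound (hθ : 0 < θ) (he : 0 < ε) (he1 : ε < 1) {t l : ℝ} (ht : 0 < t) (hl : 0 < l)
    (ξ : Path) (p : Fin (ξ.r + 1)) :
    |Vale.Agent.P157.Parisi.slope (epsPot θ ε) ξ.m ξ.q p -
        Vale.Agent.P157.Parisi.slope (quadPot θ) ξ.m ξ.q p| ≤
      (1 + l⁻¹ + θ ^ 2 * l⁻¹) * ∫ z, Psi θ ε t z ∂gaussianReal 0 1 + 2 * l * θ ^ 2 := by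
  obtain ⟨r, m, q, hP⟩ := ξ
  obtain ⟨A, hf⟩ := exists_smooth hθ he he1
  show |Vale.Agent.P157.Parisi.slope (epsPot θ ε) m q p -
    Vale.Agent.P157.Parisi.slope (quadPot θ) m q p| ≤ _
  rw [slope_eq_sm, slope_eq_sm]
  have hd : (fun x => deriv (level m q (topMean (quadPot θ) (1 - q (Fin.last r))) p) x ^ 2) =
      fun x => (θ / denom θ m q p * x) ^ 2 := by
    funext x
    rw [level_quad hθ hP.pos hP.mono hP.le_one p]
    have := ((((hasDerivAt_pow 2 x).const_mul (θ / denom θ m q p)).div_const 2).const_sub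
      (quadConst θ m q p)).deriv
    rw [this]
    simp; ring
  rw [hd]
  obtain ⟨⟨D, hD⟩, -, -⟩ := level_dev hθ he he1 ht hP.pos hP.mono hP.le_one p
  have pa : PG (down m q (topMean (epsPot θ ε) (1 - q (Fin.last r))) p fun x =>
      deriv (level m q (topMean (epsPot θ ε) (1 - q (Fin.last r))) p) x ^ 2) :=
    pg_down (hf.cb_top _) hP.pos q p (pg_of_cb hD).sq
  have pb : PG (down m q (topMean (quadPot θ) (1 - q (Fin.last r))) p fun x =>
      (θ / denom θ m q p * x) ^ 2) := by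
    rw [down_quad hθ hP.pos hP.mono hP.le_one p]
    exact (PG.ident.sq.const_mul _).add (PG.const _)
  have hR := pg_Rem hθ he he1 ht hl
  have hW := pg_Wgt hθ he he1 ht hl
  have hT : PG fun z => Rem θ ε t l z + θ ^ 2 * Wgt θ ε t l z := hR.add (hW.const_mul _)
  have hle := slope_pointwise hθ he he1 ht hl hP.pos hP.lt_one hP.mono hP.nonneg hP.le_one p
  have hb : 0 ≤ 1 - q 0 := sub_nonneg.2 ((hP.mono (Fin.le_last _)).trans hP.le_one)
  have habs : |sm (q 0) (down m q (topMean (epsPot θ ε) (1 - q (Fin.last r))) p fun x =>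
      deriv (level m q (topMean (epsPot θ ε) (1 - q (Fin.last r))) p) x ^ 2) 0 -
    sm (q 0) (down m q (topMean (quadPot θ) (1 - q (Fin.last r))) p fun x =>
      (θ / denom θ m q p * x) ^ 2) 0| ≤
      sm (q 0) (sm (1 - q 0) fun z => Rem θ ε t l z + θ ^ 2 * Wgt θ ε t l z) 0 := by
    show |(∫ g, _ ∂gaussianReal 0 1) - ∫ g, _ ∂gaussianReal 0 1| ≤ _
    rw [← integral_sub (pa.integrable 0 _) (pb.integrable 0 _)]
    exact abs_integral_le_integral_abs.trans
      (integral_mono ((pa.integrable 0 _).sub' (pb.integrable 0 _)).abs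
        ((hT.sm _).integrable 0 _) fun g => hle _)
  refine habs.trans_eq ?_
  rw [sm_sm hT hP.nonneg hb, add_sub_cancel, sm_one_zero]
  have hP' := (pg_Psi hθ he he1 ht).integrable'
  have hs := integral_sq_gaussianReal 0 1
  have e : ∀ z, Rem θ ε t l z + θ ^ 2 * Wgt θ ε t l z =
      (1 + l⁻¹ + θ ^ 2 * l⁻¹) * Psi θ ε t z + 2 * l * θ ^ 2 * z ^ 2 := fun z => by
    simp only [Rem, Wgt]; ring
  simp only [e]
  rw [integral_add (hP'.const_mul _) (hs.1.const_mul _), integral_const_mul, integral_const_mul,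
    hs.2]
  simp

lemma tendsto_hpot (θ z : ℝ) :
    Tendsto (fun ε => hpot θ ε z) (𝓝[>] (0 : ℝ)) (𝓝 0) := by
  have h : ContinuousAt (fun ε => hpot θ ε z) 0 := by
    have hne : (0 : ℝ) + (1 - 0) * Real.exp (quadPot θ z) ≠ 0 := by
      simp [Real.exp_ne_zero]
    unfold hpot epsPot
    exact ((continuousAt_id.add ((continuousAt_const.sub continuousAt_id).mul
      continuousAt_const)).log hne).sub continuousAt_const
  have h0 : hpot θ 0 z = 0 := by simp [hpot, epsPot]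
  have := h.tendsto.mono_left (nhdsWithin_le_nhds (s := Set.Ioi 0))
  rwa [h0] at this

end Gap

/-- The regularisation changes pattern value and conjugate path uniformly little. -/
theorem gap_stmt : GapStmt := by
  intro θ hθ η hη
  set l := η / (4 * θ ^ 2) with hldef
  have hl : 0 < l := by positivity
  set c := 1 + l⁻¹ + θ ^ 2 * l⁻¹ with hcdef
  have hc : 0 < c := by positivity
  set t := Real.sqrt (η / (2 * c * θ ^ 2)) with htdef
  have ht : 0 < t := Real.sqrt_pos.2 (by positivity)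
  have hmem : ∀ᶠ ε in 𝓝[>] (0 : ℝ), 0 < ε ∧ ε < 1 := by
    filter_upwards [self_mem_nhdsWithin,
      nhdsWithin_le_nhds (Iio_mem_nhds (show (0 : ℝ) < 1 from one_pos))] with ε h1 h2
    exact ⟨h1, h2⟩
  have hsq := integral_sq_gaussianReal 0 1
  have d1 : Tendsto (fun ε => ∫ z, hpot θ ε z ∂gaussianReal 0 1) (𝓝[>] 0) (𝓝 0) := by
    have h := tendsto_integral_filter_of_dominated_convergence (μ := gaussianReal 0 1)
      (l := 𝓝[>] (0 : ℝ)) (F := fun ε z => hpot θ ε z) (f := fun _ => (0 : ℝ))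
      (fun z => θ / 2 * z ^ 2)
      (hmem.mono fun ε h => (continuous_hpot h.1 h.2).aestronglyMeasurable)
      (hmem.mono fun ε h => ae_of_all _ fun z => by
        rw [Real.norm_eq_abs, abs_of_nonneg (hpot_nonneg hθ h.1 h.2 z)]
        exact (hpot_le hθ h.1 h.2 z).trans_eq (by ring))
      (hsq.1.const_mul _) (ae_of_all _ fun z => tendsto_hpot θ z)
    simpa using h
  have d2 : Tendsto (fun ε => ∫ z, hpot θ ε (|z| + t) ^ 2 ∂gaussianReal 0 1) (𝓝[>] 0) (𝓝 0) := by
    have hb : PG fun z => (θ / 2 * (|z| + t) ^ 2) ^ 2 :=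
      ((PG.ident.sq.const_mul (θ / 2)).comp_abs_shift t).sq
    have h := tendsto_integral_filter_of_dominated_convergence (μ := gaussianReal 0 1)
      (l := 𝓝[>] (0 : ℝ)) (F := fun ε z => hpot θ ε (|z| + t) ^ 2) (f := fun _ => (0 : ℝ))
      (fun z => (θ / 2 * (|z| + t) ^ 2) ^ 2)
      (hmem.mono fun ε h => (((continuous_hpot h.1 h.2).comp
        (continuous_abs.add continuous_const)).pow 2).aestronglyMeasurable)
      (hmem.mono fun ε h => ae_of_all _ fun z => by
        rw [Real.norm_eq_abs, abs_of_nonneg (sq_nonneg _)]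
        exact pow_le_pow_left₀ (hpot_nonneg hθ h.1 h.2 _)
          ((hpot_le hθ h.1 h.2 _).trans_eq (by ring)) 2)
      hb.integrable' (ae_of_all _ fun z => by simpa using (tendsto_hpot θ (|z| + t)).pow 2)
    simpa using h
  have e1 := d1.eventually_le_const hη
  have e2 := d2.eventually_le_const (show 0 < η / 4 / (c * (2 / t ^ 2)) by positivity)
  obtain ⟨u, hu, hsub⟩ := mem_nhdsGT_iff_exists_Ioc_subset.1 (hmem.and (e1.and e2))
  have hu0 : 0 < u := hu
  refine ⟨u, ⟨hu0, ((hsub (Set.right_mem_Ioc.2 hu0)).1).2⟩, fun ε he heu => ?_⟩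
  obtain ⟨⟨-, he1⟩, hI1, hI2⟩ := hsub ⟨he, heu⟩
  refine ⟨exists_smooth hθ he he1, fun ξ => ?_⟩
  obtain ⟨hlo, hhi⟩ := pat_bound hθ he he1 ξ
  refine ⟨hlo, hhi.trans (by linarith), fun p => (slope_bound hθ he he1 ht hl ξ p).trans ?_⟩
  have hPsi : ∫ z, Psi θ ε t z ∂gaussianReal 0 1 =
      2 / t ^ 2 * ∫ z, hpot θ ε (|z| + t) ^ 2 ∂gaussianReal 0 1 + θ ^ 2 * t ^ 2 / 2 := by
    unfold Psi
    rw [integral_add ((((pg_hpot hθ he he1).comp_abs_shift t).sq.integrable').const_mul _)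
      (integrable_const _), integral_const_mul]
    simp
  have h2 : c * (2 / t ^ 2) * ∫ z, hpot θ ε (|z| + t) ^ 2 ∂gaussianReal 0 1 ≤ η / 4 := by
    have := (le_div_iff₀' (show 0 < c * (2 / t ^ 2) by positivity)).1 hI2
    exact this
  have h3 : c * (θ ^ 2 * t ^ 2 / 2) = η / 4 := by
    rw [htdef, Real.sq_sqrt (by positivity)]
    field_simp
    ring
  have h4 : 2 * l * θ ^ 2 = η / 2 := by
    rw [hldef]
    field_simp
    ring
  rw [← hcdef, hPsi, mul_add, ← mul_assoc]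
  linarith

end Vale.Agent.P166.NW
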