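import Vale.Agent.P166.NW.Gap.Step
import Vale.Agent.P166.NW.Quad.Levels
import Vale.Agent.P157.Parisi.ModA.Slope

/-! The recursion of the regularised potential against that of the quadratic one. -/

noncomputable section

set_option linter.unusedSectionVars false

open MeasureTheory ProbabilityTheory

namespace Vale.Agent.P166.NW.Gap

open Vale.Agent.P157.Parisi

variable {C : ℝ} {φ : ℝ → ℝ}

lemma pg_of_cb {D : ℝ} {h : ℝ → ℝ} (hh : CB D h) : PG h :=
  ⟨hh.cont.measurable, D, 0, fun x => by simpa using hh.bound x⟩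

lemma level_dec (hφ : CB C φ) (hd : Inc fun y => -φ y) : ∀ {r : ℕ} {m : Fin r → ℝ},
    (∀ i, 0 < m i) → ∀ {q : Fin (r + 1) → ℝ}, Monotone q → ∀ p,
    Inc fun y => -level m q φ p y
  | 0, _, _, _, _, _ => hd
  | r + 1, m, hm, q, hq, p => by
    have hqt : Monotone (Fin.tail q) := fun i j h => hq (Fin.succ_le_succ_iff.2 h)
    cases p using Fin.cases with
    | zero =>
      exact dec_layer (hm 0) (sub_nonneg.2 (hq (Fin.zero_le _)))
        (cb_level hφ (fun i => hm i.succ) _ 0) (level_dec hφ hd (fun i => hm i.succ) hqt 0)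
    | succ p => exact level_dec hφ hd (fun i => hm i.succ) hqt p

lemma level_semiconvex {θ : ℝ} (hφ : CB C φ)
    (hc : ConvexOn ℝ Set.univ fun y => φ y + θ * y ^ 2 / 2) : ∀ {r : ℕ} {m : Fin r → ℝ},
    (∀ i, 0 < m i) → ∀ (q : Fin (r + 1) → ℝ) p,
    ConvexOn ℝ Set.univ fun y => level m q φ p y + θ * y ^ 2 / 2
  | 0, _, _, _, _ => hc
  | r + 1, m, hm, q, p => by
    cases p using Fin.cases with
    | zero =>
      exact layer_semiconvex (hm 0) (cb_level hφ (fun i => hm i.succ) _ 0)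
        (level_semiconvex hφ hc (fun i => hm i.succ) _ 0)
    | succ p => exact level_semiconvex hφ hc (fun i => hm i.succ) _ p

lemma pg_down (hφ : CB C φ) : ∀ {r : ℕ} {m : Fin r → ℝ}, (∀ i, 0 < m i) →
    ∀ (q : Fin (r + 1) → ℝ) p {h : ℝ → ℝ}, PG h → PG (down m q φ p h)
  | 0, _, _, _, _, _, hh => hh
  | r + 1, m, hm, q, p, h, hh => by
    cases p using Fin.cases with
    | zero => exact hh
    | succ p =>
      exact pg_tilt (hm 0).le (cb_level hφ (fun i => hm i.succ) _ 0)
        (pg_down hφ (fun i => hm i.succ) _ p hh)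

lemma abs_down_sub_le (hφ : CB C φ) : ∀ {r : ℕ} {m : Fin r → ℝ}, (∀ i, 0 < m i) →
    ∀ (q : Fin (r + 1) → ℝ) p {a b c : ℝ → ℝ}, PG a → PG b → PG c →
    (∀ y, |a y - b y| ≤ c y) → ∀ x, |down m q φ p a x - down m q φ p b x| ≤ down m q φ p c x
  | 0, _, _, _, _, _, _, _, _, _, _, hle => hle
  | r + 1, m, hm, q, p, a, b, c, ha, hb, hc, hle => by
    cases p using Fin.cases with
    | zero => exact hle
    | succ p =>
      exact abs_tilt_sub_le (hm 0).le (cb_level hφ (fun i => hm i.succ) _ 0)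
        (pg_down hφ (fun i => hm i.succ) _ p ha) (pg_down hφ (fun i => hm i.succ) _ p hb)
        (pg_down hφ (fun i => hm i.succ) _ p hc)
        (abs_down_sub_le hφ (fun i => hm i.succ) _ p ha hb hc hle)

lemma down_le_sm (hφ : CB C φ) (hd : Inc fun y => -φ y) {G : ℝ → ℝ} (hG : Inc G) (hp : PG G) :
    ∀ {r : ℕ} {m : Fin r → ℝ}, (∀ i, 0 < m i) → ∀ {q : Fin (r + 1) → ℝ}, Monotone q →
    ∀ p x, down m q φ p G x ≤ sm (q p - q 0) G x
  | 0, m, _, q, _, p, x => by
    obtain rfl : p = 0 := Subsingleton.elim (α := Fin 1) p 0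
    show G x ≤ _
    simp [sm]
  | r + 1, m, hm, q, hq, p, x => by
    cases p using Fin.cases with
    | zero =>
      show G x ≤ _
      simp [sm]
    | succ p =>
      have hqt : Monotone (Fin.tail q) := fun i j h => hq (Fin.succ_le_succ_iff.2 h)
      have hδ : 0 ≤ q 1 - q 0 := sub_nonneg.2 (hq (Fin.zero_le _))
      have hb : 0 ≤ q p.succ - q 1 := sub_nonneg.2 (hq (Fin.succ_le_succ_iff.2 (Fin.zero_le p)))
      have hcb := cb_level hφ (fun i => hm i.succ) (Fin.tail q) (0 : Fin (r + 1))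
      show tilt (m 0) (q 1 - q 0) (level (Fin.tail m) (Fin.tail q) φ 0)
        (down (Fin.tail m) (Fin.tail q) φ p G) x ≤ _
      refine (tilt_le_tilt (hm 0).le hcb (pg_down hφ (fun i => hm i.succ) _ p hp) (hp.sm _)
        (fun y => down_le_sm hφ hd hG hp (fun i => hm i.succ) hqt p y) x).trans ?_
      refine (tilt_le_sm (hm 0).le hcb (level_dec hφ hd (fun i => hm i.succ) hqt 0)
        (inc_sm hG hp hb) (hp.sm _) x).trans_eq ?_
      show sm (q 1 - q 0) (sm (q p.succ - q 1) G) x = _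
      rw [sm_sm hp hδ hb]
      congr 1
      ring

section eps

variable {θ ε : ℝ}

lemma eps_semiconvex (hθ : 0 < θ) (he : 0 < ε) (he1 : ε < 1) :
    ConvexOn ℝ Set.univ fun z => epsPot θ ε z + θ * z ^ 2 / 2 := by
  have h1 : ∀ z, HasDerivAt (fun y => epsPot θ ε y + θ * y ^ 2 / 2)
      (-(θ * z) * wq θ ε z + θ * z) z := fun z => by
    refine ((hasDerivAt_eps he he1 z).fun_add
      (((hasDerivAt_pow 2 z).const_mul θ).div_const 2)).congr_deriv ?_
    simp; ring
  refine Monotone.convexOn_univ_of_deriv (fun z => (h1 z).differentiableAt) ?_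
  rw [show deriv (fun y => epsPot θ ε y + θ * y ^ 2 / 2) =
    fun z => -(θ * z) * wq θ ε z + θ * z from funext fun z => (h1 z).deriv]
  refine monotone_of_hasDerivAt_nonneg
    (fun z => (hasDerivAt_eps1 he he1 z).fun_add ((hasDerivAt_id z).const_mul θ)) fun z => ?_
  obtain ⟨h0, h1, -⟩ := wq_mem (θ := θ) he he1 z
  have : 0 ≤ (θ * z) ^ 2 * (wq θ ε z * (1 - wq θ ε z)) :=
    mul_nonneg (sq_nonneg _) (mul_nonneg h0 (sub_nonneg.2 h1))
  have : θ * wq θ ε z ≤ θ := mul_le_of_le_one_right hθ.le h1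
  show 0 ≤ _
  simp only [mul_one]
  linarith

lemma pg_hpot (hθ : 0 < θ) (he : 0 < ε) (he1 : ε < 1) : PG (hpot θ ε) := by
  refine ((PG.ident.sq).const_mul (θ / 2)).of_abs_le (continuous_hpot he he1).measurable fun z => ?_
  rw [abs_of_nonneg (hpot_nonneg hθ he he1 z), abs_of_nonneg (by positivity)]
  exact (hpot_le hθ he he1 z).trans_eq (by ring)

variable (hθ : 0 < θ) (he : 0 < ε) (he1 : ε < 1)
include hθ he he1

lemma top_dec {A : ℝ} (hf : Smooth (epsPot θ ε) A) {δ : ℝ} (hδ : 0 ≤ δ) :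
    Inc fun y => -topMean (epsPot θ ε) δ y := by
  rw [topMean_eq]
  exact dec_layer one_pos hδ hf.cb fun x y h => neg_le_neg (eps_antitone hθ he he1 h)

lemma level_gap : ∀ {r : ℕ} {m : Fin r → ℝ} {q : Fin (r + 1) → ℝ}, (∀ i, 0 < m i) →
    Monotone q → q (Fin.last r) ≤ 1 → ∀ p x,
    0 ≤ level m q (topMean (epsPot θ ε) (1 - q (Fin.last r))) p x -
      level m q (topMean (quadPot θ) (1 - q (Fin.last r))) p x ∧
    level m q (topMean (epsPot θ ε) (1 - q (Fin.last r))) p x -
      level m q (topMean (quadPot θ) (1 - q (Fin.last r))) p x ≤ sm (1 - q p) (hpot θ ε) x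
  | 0, m, q, _, _, hq1, p, x => by
    obtain rfl : p = Fin.last 0 := Subsingleton.elim (α := Fin 1) p _
    obtain ⟨A, hf⟩ := exists_smooth hθ he he1
    show 0 ≤ topMean _ _ x - topMean _ _ x ∧ topMean _ _ x - topMean _ _ x ≤ _
    simp only [topMean_eq]
    exact layer_gap one_pos hf.cb (fun x y h => neg_le_neg (eps_antitone hθ he he1 h))
      (by unfold quadPot; fun_prop) (hpot_inc hθ he he1) (pg_hpot hθ he he1)
      (quad_le_eps hθ he he1) (fun _ => le_rfl) x
  | r + 1, m, q, hm, hq, hq1, p, x => by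
    obtain ⟨A, hf⟩ := exists_smooth hθ he he1
    have hqt : Monotone (Fin.tail q) := fun i j h => hq (Fin.succ_le_succ_iff.2 h)
    have hl : Fin.tail q (Fin.last r) = q (Fin.last (r + 1)) := by simp [Fin.tail, Fin.succ_last]
    have ih := level_gap (m := Fin.tail m) (q := Fin.tail q) (fun i => hm _) hqt (hl.trans_le hq1)
    rw [hl] at ih
    cases p using Fin.cases with
    | succ p => exact ih p x
    | zero =>
      have hlev := level_quad hθ (m := Fin.tail m) (q := Fin.tail q) (fun i => hm _) hqt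
        (hl.trans_le hq1) 0
      rw [hl] at hlev
      have hb : 0 ≤ 1 - q 1 := sub_nonneg.2 ((hq (Fin.le_last _)).trans hq1)
      have hδ : 0 ≤ q 1 - q 0 := sub_nonneg.2 (hq (Fin.zero_le _))
      have h := layer_gap (δ := q 1 - q 0) (hm 0)
        (cb_level (hf.cb_top (1 - q (Fin.last (r + 1)))) (fun i => hm i.succ) (Fin.tail q) 0)
        (level_dec (hf.cb_top _) (top_dec hθ he he1 hf (sub_nonneg.2 hq1)) (fun i => hm i.succ)
          hqt 0)
        (F₀ := level (Fin.tail m) (Fin.tail q) (topMean (quadPot θ) (1 - q (Fin.last (r + 1)))) 0)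
        (by rw [hlev]; fun_prop) (inc_sm (hpot_inc hθ he he1) (pg_hpot hθ he he1) hb)
        ((pg_hpot hθ he he1).sm _) (fun y => sub_nonneg.1 (ih 0 y).1) (fun y => (ih 0 y).2) x
      rw [sm_sm (pg_hpot hθ he he1) hδ hb, show q 1 - q 0 + (1 - q 1) = 1 - q 0 by ring] at h
      exact h

end eps

/-- The bound on the squared derivative of the difference. -/
def Psi (θ ε t z : ℝ) : ℝ := 2 / t ^ 2 * hpot θ ε (|z| + t) ^ 2 + θ ^ 2 * t ^ 2 / 2

/-- The weight of the second moments. -/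
def Wgt (θ ε t l z : ℝ) : ℝ := l * z ^ 2 + l⁻¹ * Psi θ ε t z

/-- The bound on the change of a squared derivative. -/
def Rem (θ ε t l z : ℝ) : ℝ := (1 + l⁻¹) * Psi θ ε t z + l * θ ^ 2 * z ^ 2

section bounds

variable {θ ε t l : ℝ} (hθ : 0 < θ) (he : 0 < ε) (he1 : ε < 1) (ht : 0 < t)
include hθ he he1 ht

lemma pg_Psi : PG (Psi θ ε t) :=
  (((pg_hpot hθ he he1).comp_abs_shift t).sq.const_mul _).add (PG.const _)

lemma inc_Psi : Inc (Psi θ ε t) :=
  ((((hpot_inc hθ he he1).abs_shift ht.le).sq fun _ => hpot_nonneg hθ he he1 _).const_mul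
    (by positivity)).add (Inc.const _)

lemma level_dev {r : ℕ} {m : Fin r → ℝ} {q : Fin (r + 1) → ℝ} (hm : ∀ i, 0 < m i)
    (hq : Monotone q) (hq1 : q (Fin.last r) ≤ 1) (p : Fin (r + 1)) :
    (∃ A, CB A (deriv (level m q (topMean (epsPot θ ε) (1 - q (Fin.last r))) p))) ∧
    (∀ y, HasDerivAt (level m q (topMean (epsPot θ ε) (1 - q (Fin.last r))) p)
      (deriv (level m q (topMean (epsPot θ ε) (1 - q (Fin.last r))) p) y) y) ∧
    ∀ y, (deriv (level m q (topMean (epsPot θ ε) (1 - q (Fin.last r))) p) y +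
      θ / denom θ m q p * y) ^ 2 ≤ sm (1 - q p) (Psi θ ε t) y := by
  obtain ⟨A, hf⟩ := exists_smooth hθ he he1
  set δ := 1 - q (Fin.last r)
  set L := level m q (topMean (epsPot θ ε) δ) p with hL
  have hφ : CB A (topMean (epsPot θ ε) δ) := hf.cb_top δ
  have hψ : CB A (bar (epsPot θ ε) δ (deriv (epsPot θ ε))) := cb_bar hf.cb hf.cb1 δ
  have hder := hasDerivAt_level hφ hψ (fun y => hf.hasDerivAt_top δ y) hm q p
  have hd : deriv L = up m q (topMean (epsPot θ ε) δ) p (bar (epsPot θ ε) δ (deriv (epsPot θ ε))) :=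
    funext fun y => (hder y).deriv
  refine ⟨⟨A, by rw [hd]; exact cb_up hφ hψ hm q p⟩, fun y => by rw [hd]; exact hder y, fun y => ?_⟩
  set u := θ / denom θ m q p with hu
  have hu0 : 0 ≤ u := div_nonneg hθ.le (denom_pos hθ.le (fun i => (hm i).le) hq hq1 p).le
  have huθ : u ≤ θ := div_le_self hθ.le (one_le_denom hθ.le (fun i => (hm i).le) hq hq1 p)
  have hqp : 0 ≤ 1 - q p := sub_nonneg.2 ((hq (Fin.le_last p)).trans hq1)
  set c := quadConst θ m q p
  set H := sm (1 - q p) (hpot θ ε)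
  have hi : Inc H := inc_sm (hpot_inc hθ he he1) (pg_hpot hθ he he1) hqp
  have hb : ∀ z, 0 ≤ L z - (c - u * z ^ 2 / 2) ∧ L z - (c - u * z ^ 2 / 2) ≤ H z := fun z => by
    have h := level_gap hθ he he1 hm hq hq1 p z
    rwa [level_quad hθ hm hq hq1 p] at h
  have hc := level_semiconvex hφ (θ := θ) (by
    rw [topMean_eq]
    exact layer_semiconvex one_pos hf.cb (eps_semiconvex hθ he he1)) hm q p
  have hK : HasDerivAt (fun z => L z + θ * z ^ 2 / 2) (deriv L y + θ * y) y := by
    rw [hd]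
    refine ((hder y).fun_add (((hasDerivAt_pow 2 y).const_mul θ).div_const 2)).congr_deriv ?_
    simp; ring
  have hup : (deriv L y + u * y) * t ≤ H (|y| + t) + θ * t ^ 2 / 2 := by
    have h := hc.le_slope_of_hasDerivAt (Set.mem_univ y) (Set.mem_univ (y + t))
      (lt_add_of_pos_right y ht) hK
    rw [slope_def_field, add_sub_cancel_left, le_div_iff₀ ht] at h
    have h1 := (hb y).1
    have h2 := (hb (y + t)).2
    have h3 : H (y + t) ≤ H (|y| + t) := hi _ _ (by
      rw [abs_of_nonneg (add_nonneg (abs_nonneg y) ht.le), abs_le]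
      constructor <;> linarith [le_abs_self y, neg_abs_le y])
    nlinarith [mul_nonneg hu0 (sq_nonneg t)]
  have hdown : -(H (|y| + t) + θ * t ^ 2 / 2) ≤ (deriv L y + u * y) * t := by
    have h := hc.slope_le_of_hasDerivAt (Set.mem_univ (y - t)) (Set.mem_univ y)
      (sub_lt_self y ht) hK
    rw [slope_def_field, sub_sub_cancel, div_le_iff₀ ht] at h
    have h1 := (hb y).1
    have h2 := (hb (y - t)).2
    have h3 : H (y - t) ≤ H (|y| + t) := hi _ _ (by
      rw [abs_of_nonneg (add_nonneg (abs_nonneg y) ht.le), abs_le]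
      constructor <;> linarith [le_abs_self y, neg_abs_le y])
    nlinarith [mul_nonneg hu0 (sq_nonneg t)]
  have hh := (pg_hpot hθ he he1).comp_abs_shift t
  set hT := sm (1 - q p) (fun z => hpot θ ε (|z| + t)) y
  have hHT : H (|y| + t) ≤ hT := sm_shift_le (hpot_inc hθ he he1) (pg_hpot hθ he he1) hqp ht.le y
  have hsq : ((deriv L y + u * y) * t) ^ 2 ≤ (hT + θ * t ^ 2 / 2) ^ 2 :=
    sq_le_sq' (by linarith) (by linarith)
  have hj := sq_sm_le hh (1 - q p) y
  have e : sm (1 - q p) (Psi θ ε t) y =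
      2 / t ^ 2 * sm (1 - q p) (fun z => hpot θ ε (|z| + t) ^ 2) y + θ ^ 2 * t ^ 2 / 2 := by
    unfold Psi
    rw [sm_add (hh.sq.const_mul _) (PG.const _), sm_const_mul, sm_const]
  rw [e]
  refine le_of_mul_le_mul_right ?_ (pow_pos ht 2)
  rw [add_mul, div_mul_eq_mul_div 2, div_mul_cancel₀ _ (pow_ne_zero 2 ht.ne')]
  nlinarith [sq_nonneg (hT - θ * t ^ 2 / 2)]

variable (hl : 0 < l)
include hl

lemma pg_Wgt : PG (Wgt θ ε t l) :=
  (PG.ident.sq.const_mul l).add ((pg_Psi hθ he he1 ht).const_mul _)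

lemma inc_Wgt : Inc (Wgt θ ε t l) :=
  (Inc.square.const_mul hl.le).add ((inc_Psi hθ he he1 ht).const_mul (inv_pos.2 hl).le)

lemma pg_Rem : PG (Rem θ ε t l) :=
  ((pg_Psi hθ he he1 ht).const_mul _).add (PG.ident.sq.const_mul _)

lemma inc_Rem : Inc (Rem θ ε t l) :=
  ((inc_Psi hθ he he1 ht).const_mul (by positivity)).add (Inc.square.const_mul (by positivity))

lemma down_quad_gap : ∀ {r : ℕ} {m : Fin r → ℝ} {q : Fin (r + 1) → ℝ}, (∀ i, 0 < m i) →
    (∀ i, m i < 1) → Monotone q → q (Fin.last r) ≤ 1 → ∀ p x,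
    |down m q (topMean (epsPot θ ε) (1 - q (Fin.last r))) p
        (fun y => (θ / denom θ m q p * y) ^ 2) x -
      down m q (topMean (quadPot θ) (1 - q (Fin.last r))) p
        (fun y => (θ / denom θ m q p * y) ^ 2) x| ≤
      θ ^ 2 * (q p - q 0) * sm (1 - q 0) (Wgt θ ε t l) x
  | 0, m, q, _, _, _, _, p, x => by
    obtain rfl : p = 0 := Subsingleton.elim (α := Fin 1) p 0
    simp [down_zero]
  | r + 1, m, q, hm, hm1, hq, hq1, p, x => by
    obtain ⟨A, hf⟩ := exists_smooth hθ he he1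
    have hqt : Monotone (Fin.tail q) := fun i j h => hq (Fin.succ_le_succ_iff.2 h)
    have hl' : Fin.tail q (Fin.last r) = q (Fin.last (r + 1)) := by simp [Fin.tail, Fin.succ_last]
    have ih := down_quad_gap (m := Fin.tail m) (q := Fin.tail q) (fun i => hm _) (fun i => hm1 _)
      hqt (hl'.trans_le hq1)
    have hlev := level_quad hθ (m := Fin.tail m) (q := Fin.tail q) (fun i => hm _) hqt
      (hl'.trans_le hq1) 0
    obtain ⟨⟨D, hD⟩, hder, hdev⟩ := level_dev hθ he he1 ht (m := Fin.tail m) (q := Fin.tail q)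
      (fun i => hm _) hqt (hl'.trans_le hq1) 0
    have hdq := down_quad hθ (m := Fin.tail m) (q := Fin.tail q) (fun i => hm _) hqt
      (hl'.trans_le hq1)
    rw [hl'] at ih hlev hdq hD hder hdev
    cases p using Fin.cases with
    | zero => simp [down_zero]
    | succ p =>
      specialize ih p
      specialize hdq p
      simp only [denom_tail, show Fin.tail q 0 = q 1 from rfl, show Fin.tail q p = q p.succ from rfl]
        at ih hdev hdq
      set φ := topMean (epsPot θ ε) (1 - q (Fin.last (r + 1))) with hφdef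
      set φ₀ := topMean (quadPot θ) (1 - q (Fin.last (r + 1))) with hφ₀def
      set f := fun y => (θ / denom θ m q p.succ * y) ^ 2
      set δ := q 1 - q 0 with hδdef
      set u := θ / denom θ m q (Fin.succ 0) with hudef
      have hφ : CB A φ := hf.cb_top _
      have hcb : CB A (level (Fin.tail m) (Fin.tail q) φ 0) :=
        cb_level hφ (fun i => hm i.succ) _ 0
      have hdec : Inc fun y => -level (Fin.tail m) (Fin.tail q) φ 0 y :=
        level_dec hφ (top_dec hθ he he1 hf (sub_nonneg.2 hq1)) (fun i => hm i.succ) hqt 0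
      have hδ : 0 ≤ δ := sub_nonneg.2 (hq (Fin.zero_le _))
      have hb : 0 ≤ 1 - q 1 := sub_nonneg.2 ((hq (Fin.le_last _)).trans hq1)
      have hu : 0 ≤ u := div_nonneg hθ.le (denom_pos hθ.le (fun i => (hm i).le) hq hq1 _).le
      show |tilt (m 0) δ (level (Fin.tail m) (Fin.tail q) φ 0)
          (down (Fin.tail m) (Fin.tail q) φ p f) x -
        tilt (m 0) δ (level (Fin.tail m) (Fin.tail q) φ₀ 0)
          (down (Fin.tail m) (Fin.tail q) φ₀ p f) x| ≤ _
      rw [hdq]
      set K := θ ^ 2 / denom θ m q (Fin.succ 0) ^ 2 with hKdef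
      set S := θ ^ 2 * ∑ i : Fin r, if i.val < p.val then gap (Fin.tail q) i /
        (denom θ m q i.castSucc.succ * denom θ m q i.succ.succ) else 0
      rw [hlev, denom_tail, tilt_quad (hm 0) hu hδ]
      have hB : PG fun y => K * y ^ 2 + S := (PG.ident.sq.const_mul K).add (PG.const S)
      have hf' : PG f := (PG.ident.const_mul _).sq
      have hW : PG (Wgt θ ε t l) := pg_Wgt hθ he he1 ht hl
      have hWi : Inc (Wgt θ ε t l) := inc_Wgt hθ he he1 ht hl
      have hqp : 0 ≤ q p.succ - q 1 :=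
        sub_nonneg.2 (hq (Fin.succ_le_succ_iff.2 (Fin.zero_le p)))
      have h1 : |tilt (m 0) δ (level (Fin.tail m) (Fin.tail q) φ 0)
            (down (Fin.tail m) (Fin.tail q) φ p f) x -
          tilt (m 0) δ (level (Fin.tail m) (Fin.tail q) φ 0) (fun y => K * y ^ 2 + S) x| ≤
          θ ^ 2 * (q p.succ - q 1) * sm (1 - q 0) (Wgt θ ε t l) x := by
        refine (abs_tilt_sub_le (hm 0).le hcb (pg_down hφ (fun i => hm i.succ) _ p hf') hB
          ((hW.sm (1 - q 1)).const_mul _) (fun y => by have := ih y; rwa [hdq] at this) x).trans ?_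
        refine (tilt_le_sm (hm 0).le hcb hdec
          ((inc_sm hWi hW hb).const_mul (mul_nonneg (sq_nonneg θ) hqp))
          ((hW.sm (1 - q 1)).const_mul _) x).trans_eq ?_
        rw [sm_const_mul, sm_sm hW hδ hb, show δ + (1 - q 1) = 1 - q 0 by rw [hδdef]; ring]
      have h2 : |tilt (m 0) δ (level (Fin.tail m) (Fin.tail q) φ 0) (fun y => K * y ^ 2 + S) x -
          (K * (x ^ 2 / (1 + m 0 * u * δ) ^ 2 + δ / (1 + m 0 * u * δ)) + S)| ≤
          θ ^ 2 * δ * sm (1 - q 0) (Wgt θ ε t l) x := by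
        rw [tilt_affine (hm 0).le hcb PG.ident.sq, add_sub_add_right_eq_sub, ← mul_sub, abs_mul,
          mul_assoc (θ ^ 2)]
        refine mul_le_mul ?_ ?_ (abs_nonneg _) (sq_nonneg θ)
        · rw [abs_of_nonneg (by positivity), hKdef]
          exact div_le_self (sq_nonneg θ) (one_le_pow₀ (one_le_denom hθ.le (fun i => (hm i).le) hq hq1 _))
        refine (tilt_sq_gap (hm 0) (hm1 0).le hδ hu hl hcb hD hder x).trans
          (mul_le_mul_of_nonneg_left ?_ hδ)
        have hP := pg_Psi hθ he he1 ht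
        set V := fun z => l / 2 * z ^ 2 + l⁻¹ * Psi θ ε t z
        have hV : PG V := (PG.ident.sq.const_mul _).add (hP.const_mul _)
        have hVi : Inc V := (Inc.square.const_mul (by positivity)).add
          ((inc_Psi hθ he he1 ht).const_mul (inv_pos.2 hl).le)
        have hT : PG fun y => l / 2 * y ^ 2 +
            (deriv (level (Fin.tail m) (Fin.tail q) φ 0) y + u * y) ^ 2 / l := by
          simpa only [div_eq_mul_inv] using (PG.ident.sq.const_mul (l / 2)).add
            (((pg_of_cb hD).add (PG.ident.const_mul u)).sq.mul (PG.const l⁻¹))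
        have h3 : tilt (m 0) δ (level (Fin.tail m) (Fin.tail q) φ 0) (fun y => l / 2 * y ^ 2 +
            (deriv (level (Fin.tail m) (Fin.tail q) φ 0) y + u * y) ^ 2 / l) x ≤
            sm (1 - q 0) V x := by
          refine (tilt_le_tilt (hm 0).le hcb hT (hV.sm (1 - q 1)) (fun y => ?_) x).trans ?_
          · rw [sm_add (PG.ident.sq.const_mul _) (hP.const_mul _), sm_const_mul, sm_const_mul,
              sm_sq hb, div_eq_mul_inv _ l, mul_comm _ l⁻¹]
            refine add_le_add ?_ (mul_le_mul_of_nonneg_left (hdev y) (inv_pos.2 hl).le)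
            exact mul_le_mul_of_nonneg_left (le_add_of_nonneg_right hb) (by positivity)
          · refine (tilt_le_sm (hm 0).le hcb hdec (inc_sm hVi hV hb) (hV.sm _) x).trans_eq ?_
            rw [sm_sm hV hδ hb, show δ + (1 - q 1) = 1 - q 0 by rw [hδdef]; ring]
        have h4 : sm (1 - q 0) (Wgt θ ε t l) x =
            l / 2 * (x ^ 2 + (1 - q 0)) + sm (1 - q 0) V x := by
          have e : Wgt θ ε t l = fun z => l / 2 * z ^ 2 + V z := funext fun z => by
            simp only [Wgt, V]; ring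
          rw [e, sm_add (PG.ident.sq.const_mul _) hV, sm_const_mul,
            sm_sq (sub_nonneg.2 ((hq (Fin.le_last _)).trans hq1))]
        have h5 : l * x ^ 2 / 2 ≤ l / 2 * (x ^ 2 + (1 - q 0)) := by
          nlinarith [sub_nonneg.2 ((hq (Fin.le_last (0 : Fin (r + 1 + 1)))).trans hq1)]
        linarith
      refine (abs_sub_le _ _ _).trans ((add_le_add h1 h2).trans_eq ?_)
      rw [hδdef]; ring

lemma slope_pointwise {r : ℕ} {m : Fin r → ℝ} {q : Fin (r + 1) → ℝ} (hm : ∀ i, 0 < m i)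
    (hm1 : ∀ i, m i < 1) (hq : Monotone q) (hq0 : 0 ≤ q 0) (hq1 : q (Fin.last r) ≤ 1)
    (p : Fin (r + 1)) (x : ℝ) :
    |down m q (topMean (epsPot θ ε) (1 - q (Fin.last r))) p
        (fun y => deriv (level m q (topMean (epsPot θ ε) (1 - q (Fin.last r))) p) y ^ 2) x -
      down m q (topMean (quadPot θ) (1 - q (Fin.last r))) p
        (fun y => (θ / denom θ m q p * y) ^ 2) x| ≤
      sm (1 - q 0) (fun z => Rem θ ε t l z + θ ^ 2 * Wgt θ ε t l z) x := by
  obtain ⟨A, hf⟩ := exists_smooth hθ he he1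
  set φ := topMean (epsPot θ ε) (1 - q (Fin.last r)) with hφdef
  set u := θ / denom θ m q p
  have hu0 : 0 ≤ u := div_nonneg hθ.le (denom_pos hθ.le (fun i => (hm i).le) hq hq1 p).le
  have huθ : u ≤ θ := div_le_self hθ.le (one_le_denom hθ.le (fun i => (hm i).le) hq hq1 p)
  obtain ⟨⟨D, hD⟩, -, hdev⟩ := level_dev hθ he he1 ht hm hq hq1 p
  have hφ : CB A φ := hf.cb_top _
  have hR := pg_Rem hθ he he1 ht hl
  have hW := pg_Wgt hθ he he1 ht hl
  have hRi := inc_Rem hθ he he1 ht hl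
  have hb : 0 ≤ 1 - q p := sub_nonneg.2 ((hq (Fin.le_last p)).trans hq1)
  have hδ : 0 ≤ q p - q 0 := sub_nonneg.2 (hq (Fin.zero_le p))
  have hpt : ∀ y, |deriv (level m q φ p) y ^ 2 - (u * y) ^ 2| ≤ sm (1 - q p) (Rem θ ε t l) y :=
    fun y => by
    set d := deriv (level m q φ p) y + u * y with hd
    have hd2 : d ^ 2 ≤ sm (1 - q p) (Psi θ ε t) y := hdev y
    have e : deriv (level m q φ p) y ^ 2 - (u * y) ^ 2 = d ^ 2 - 2 * d * (u * y) := by
      rw [hd]; ring
    have h1 : |2 * d * (u * y)| ≤ l⁻¹ * d ^ 2 + l * θ ^ 2 * y ^ 2 := by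
      have hsq : u ^ 2 * y ^ 2 ≤ θ ^ 2 * y ^ 2 :=
        mul_le_mul_of_nonneg_right (pow_le_pow_left₀ hu0 huθ 2) (sq_nonneg y)
      have h0 : 0 ≤ l⁻¹ * (|d| - l * |u * y|) ^ 2 := by positivity
      have e2 : l⁻¹ * (|d| - l * |u * y|) ^ 2 =
          l⁻¹ * d ^ 2 - |2 * d * (u * y)| + l * (u * y) ^ 2 := by
        rw [← sq_abs d, ← sq_abs (u * y), abs_mul (2 * d), abs_mul 2 d, abs_two]
        field_simp
        ring
      nlinarith
    have h2 : sm (1 - q p) (Rem θ ε t l) y =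
        (1 + l⁻¹) * sm (1 - q p) (Psi θ ε t) y + l * θ ^ 2 * (y ^ 2 + (1 - q p)) := by
      unfold Rem
      rw [sm_add ((pg_Psi hθ he he1 ht).const_mul _) (PG.ident.sq.const_mul _), sm_const_mul,
        sm_const_mul, sm_sq hb]
    rw [e, h2, abs_le]
    have h3 := abs_le.1 h1
    have h4 : (1 + l⁻¹) * d ^ 2 ≤ (1 + l⁻¹) * sm (1 - q p) (Psi θ ε t) y :=
      mul_le_mul_of_nonneg_left hd2 (by positivity)
    have h5 : 0 ≤ l * θ ^ 2 * (1 - q p) := by positivity
    constructor <;> nlinarith [sq_nonneg d]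
  have hpd : PG fun y => deriv (level m q φ p) y ^ 2 := (pg_of_cb hD).sq
  have h1 : |down m q φ p (fun y => deriv (level m q φ p) y ^ 2) x -
      down m q φ p (fun y => (u * y) ^ 2) x| ≤ sm (1 - q 0) (Rem θ ε t l) x := by
    refine (abs_down_sub_le hφ hm q p hpd (PG.ident.const_mul u).sq (hR.sm _) hpt x).trans ?_
    refine (down_le_sm hφ (top_dec hθ he he1 hf (sub_nonneg.2 hq1)) (inc_sm hRi hR hb) (hR.sm _)
      hm hq p x).trans_eq ?_
    rw [sm_sm hR hδ hb, show q p - q 0 + (1 - q p) = 1 - q 0 by ring]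
  have h2 := down_quad_gap hθ he he1 ht hl hm hm1 hq hq1 p x
  have hn : 0 ≤ sm (1 - q 0) (Wgt θ ε t l) x := integral_nonneg fun g => by
    simp only [Wgt, Psi, Pi.zero_apply]; positivity
  have hle : q p - q 0 ≤ 1 := by linarith [(hq (Fin.le_last p)).trans hq1]
  rw [sm_add hR (hW.const_mul _), sm_const_mul]
  refine (abs_sub_le _ _ _).trans (add_le_add h1 (h2.trans ?_))
  exact mul_le_mul_of_nonneg_right (mul_le_of_le_one_right (sq_nonneg θ) hle) hn

end bounds

end Vale.Agent.P166.NW.Gap
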