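import Vale.Agent.P166.NW.Gap.Pot
import Vale.Agent.P157.GaussShift
import Vale.Agent.P166.NW.Quad.Gauss

/-! Gaussian smoothing of functions of polynomial growth that increase in the absolute value. -/

noncomputable section

open MeasureTheory ProbabilityTheory
open scoped NNReal

namespace Vale.Agent.P166.NW.Gap

/-- A measurable function of polynomial growth. -/
structure PG (G : ℝ → ℝ) : Prop where
  meas : Measurable G
  growth : ∃ K : ℝ, ∃ k : ℕ, ∀ x, |G x| ≤ K * (1 + |x|) ^ k

/-- Gaussian smoothing. -/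
def sm (δ : ℝ) (G : ℝ → ℝ) (x : ℝ) : ℝ := ∫ g, G (x + Real.sqrt δ * g) ∂gaussianReal 0 1

lemma one_add_abs_add_le (x y : ℝ) : 1 + |x + y| ≤ (1 + |x|) * (1 + |y|) := by
  nlinarith [abs_add_le x y, abs_nonneg x, abs_nonneg y]

lemma integrable_moment (s : ℝ) (k : ℕ) :
    Integrable (fun g : ℝ => (1 + |s * g|) ^ k) (gaussianReal 0 1) := by
  have h0 : MemLp (fun g : ℝ => g) (k : ℕ) (gaussianReal 0 1) :=
    memLp_id_gaussianReal' _ (ENNReal.natCast_ne_top k)
  have h : MemLp (fun g : ℝ => 1 + |s * g|) (k : ℕ) (gaussianReal 0 1) :=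
    (memLp_const (1 : ℝ)).add (h0.const_mul s).norm
  refine h.integrable_norm_pow'.congr (ae_of_all _ fun g => ?_)
  show ‖1 + |s * g|‖ ^ k = (1 + |s * g|) ^ k
  rw [Real.norm_eq_abs, abs_of_nonneg (add_nonneg zero_le_one (abs_nonneg _))]

namespace PG

variable {G G' : ℝ → ℝ}

lemma of_abs_le (h : PG G) (hm : Measurable G') (hle : ∀ x, |G' x| ≤ |G x|) : PG G' := by
  obtain ⟨K, k, hK⟩ := h.growth
  exact ⟨hm, K, k, fun x => (hle x).trans (hK x)⟩

lemma nonneg_const {K : ℝ} {k : ℕ} (hK : ∀ x, |G x| ≤ K * (1 + |x|) ^ k) : 0 ≤ K := by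
  have := hK 0
  simp only [abs_zero, add_zero, one_pow, mul_one] at this
  exact (abs_nonneg _).trans this

lemma const (c : ℝ) : PG fun _ => c := ⟨measurable_const, |c|, 0, fun _ => by simp⟩

lemma ident : PG fun x => x := ⟨measurable_id, 1, 1, fun _ => by simp⟩

lemma add (h : PG G) (h' : PG G') : PG fun x => G x + G' x := by
  obtain ⟨K, k, hK⟩ := h.growth
  obtain ⟨K', k', hK'⟩ := h'.growth
  refine ⟨h.meas.add h'.meas, K + K', k + k', fun x => ?_⟩
  have h1 : 1 ≤ 1 + |x| := le_add_of_nonneg_right (abs_nonneg x)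
  have e := pow_le_pow_right₀ h1 (Nat.le_add_right k k')
  have e' := pow_le_pow_right₀ h1 (Nat.le_add_left k' k)
  calc |G x + G' x| ≤ |G x| + |G' x| := abs_add_le _ _
    _ ≤ K * (1 + |x|) ^ (k + k') + K' * (1 + |x|) ^ (k + k') :=
      add_le_add ((hK x).trans (mul_le_mul_of_nonneg_left e (nonneg_const hK)))
        ((hK' x).trans (mul_le_mul_of_nonneg_left e' (nonneg_const hK')))
    _ = (K + K') * (1 + |x|) ^ (k + k') := by ring

lemma mul (h : PG G) (h' : PG G') : PG fun x => G x * G' x := by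
  obtain ⟨K, k, hK⟩ := h.growth
  obtain ⟨K', k', hK'⟩ := h'.growth
  refine ⟨h.meas.mul h'.meas, K * K', k + k', fun x => ?_⟩
  rw [abs_mul, pow_add]
  refine (mul_le_mul (hK x) (hK' x) (abs_nonneg _) ((abs_nonneg _).trans (hK x))).trans_eq ?_
  ring

lemma const_mul (h : PG G) (c : ℝ) : PG fun x => c * G x := (const c).mul h

lemma neg (h : PG G) : PG fun x => -G x :=
  h.of_abs_le h.meas.neg fun _ => (abs_neg _).le

lemma sub (h : PG G) (h' : PG G') : PG fun x => G x - G' x := by
  simpa only [sub_eq_add_neg] using h.add h'.neg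

lemma abs (h : PG G) : PG fun x => |G x| :=
  h.of_abs_le h.meas.abs fun _ => (abs_abs _).le

lemma sq (h : PG G) : PG fun x => G x ^ 2 := by simpa only [pow_two] using h.mul h

lemma comp_shift (h : PG G) (c : ℝ) : PG fun x => G (c + x) := by
  obtain ⟨K, k, hK⟩ := h.growth
  refine ⟨h.meas.comp (measurable_const_add c), K * (1 + |c|) ^ k, k, fun x => ?_⟩
  refine (hK _).trans ?_
  rw [mul_assoc, ← mul_pow]
  exact mul_le_mul_of_nonneg_left (pow_le_pow_left₀ (by positivity) (one_add_abs_add_le c x) k)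
    (nonneg_const hK)

lemma comp_abs_shift (h : PG G) (t : ℝ) : PG fun x => G (|x| + t) := by
  obtain ⟨K, k, hK⟩ := (h.comp_shift t).growth
  refine ⟨h.meas.comp (measurable_id.abs.add_const t), K, k, fun x => ?_⟩
  simpa [add_comm t] using hK |x|

lemma integrable (h : PG G) (x s : ℝ) :
    Integrable (fun g => G (x + s * g)) (gaussianReal 0 1) := by
  obtain ⟨K, k, hK⟩ := (h.comp_shift x).growth
  exact ((integrable_moment s k).const_mul K).mono'
    (h.meas.comp (by fun_prop)).aestronglyMeasurable (ae_of_all _ fun g => hK (s * g))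

lemma integrable' (h : PG G) : Integrable G (gaussianReal 0 1) := by
  simpa using h.integrable 0 1

end PG

lemma measurable_param {f : ℝ → ℝ → ℝ} (hf : Measurable (Function.uncurry f)) :
    Measurable fun x => ∫ g, f x g ∂gaussianReal 0 1 :=
  (hf.stronglyMeasurable.integral_prod_right').measurable

lemma abs_sm_le {G : ℝ → ℝ} {K : ℝ} {k : ℕ} (hm : Measurable G)
    (hK : ∀ x, |G x| ≤ K * (1 + |x|) ^ k) (δ x : ℝ) :
    ∫ g, |G (x + Real.sqrt δ * g)| ∂gaussianReal 0 1 ≤
      K * (∫ g, (1 + |Real.sqrt δ * g|) ^ k ∂gaussianReal 0 1) * (1 + |x|) ^ k := by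
  have h : PG G := ⟨hm, K, k, hK⟩
  rw [← integral_const_mul, ← integral_mul_const]
  refine integral_mono (h.integrable x _).abs (((integrable_moment _ k).const_mul K).mul_const _)
    fun g => (hK _).trans ?_
  calc K * (1 + |x + Real.sqrt δ * g|) ^ k
      ≤ K * ((1 + |x|) * (1 + |Real.sqrt δ * g|)) ^ k := mul_le_mul_of_nonneg_left
        (pow_le_pow_left₀ (by positivity) (one_add_abs_add_le _ _) k) (PG.nonneg_const hK)
    _ = _ := by rw [mul_pow]; ring

lemma PG.sm {G : ℝ → ℝ} (h : PG G) (δ : ℝ) : PG (sm δ G) := by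
  obtain ⟨K, k, hK⟩ := h.growth
  exact ⟨measurable_param (f := fun x g => G (x + Real.sqrt δ * g))
      (h.meas.comp (by fun_prop)),
    _, k, fun x => abs_integral_le_integral_abs.trans (abs_sm_le h.meas hK δ x)⟩

section sm

variable {G G' : ℝ → ℝ}

lemma sm_mono (h : PG G) (h' : PG G') (hle : ∀ y, G y ≤ G' y) (δ x : ℝ) :
    sm δ G x ≤ sm δ G' x :=
  integral_mono (h.integrable x _) (h'.integrable x _) fun _ => hle _

lemma sm_add (h : PG G) (h' : PG G') (δ x : ℝ) :
    sm δ (fun y => G y + G' y) x = sm δ G x + sm δ G' x :=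
  integral_add (h.integrable x _) (h'.integrable x _)

lemma sm_const_mul (c δ x : ℝ) (G : ℝ → ℝ) : sm δ (fun y => c * G y) x = c * sm δ G x :=
  integral_const_mul c _

lemma sm_const (c δ x : ℝ) : sm δ (fun _ => c) x = c := by simp [sm]

lemma sq_sm_le (h : PG G) (δ x : ℝ) : sm δ G x ^ 2 ≤ sm δ (fun y => G y ^ 2) x := by
  set c := sm δ G x with hc
  have h1 := h.integrable x (Real.sqrt δ)
  have h2 := h.sq.integrable x (Real.sqrt δ)
  have hnn : 0 ≤ ∫ g, (G (x + Real.sqrt δ * g) ^ 2 - 2 * c * G (x + Real.sqrt δ * g) + c ^ 2)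
      ∂gaussianReal 0 1 := integral_nonneg fun g => by
    show 0 ≤ _
    nlinarith [sq_nonneg (G (x + Real.sqrt δ * g) - c)]
  rw [integral_add (h2.sub' (h1.const_mul _)) (integrable_const _),
    integral_sub h2 (h1.const_mul _), integral_const_mul] at hnn
  simp only [integral_const, probReal_univ, one_smul] at hnn
  have e : c = ∫ g, G (x + Real.sqrt δ * g) ∂gaussianReal 0 1 := hc
  rw [← e] at hnn
  show c ^ 2 ≤ ∫ g, G (x + Real.sqrt δ * g) ^ 2 ∂gaussianReal 0 1
  nlinarith

lemma sm_sq {δ : ℝ} (hδ : 0 ≤ δ) (x : ℝ) : sm δ (fun y => y ^ 2) x = x ^ 2 + δ := by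
  rw [sm, integral_affine_sq, Real.sq_sqrt hδ]
  simp

lemma sm_sm (h : PG G) {a b : ℝ} (ha : 0 ≤ a) (hb : 0 ≤ b) (x : ℝ) :
    sm a (sm b G) x = sm (a + b) G x := by
  have hd : PG fun z => G (x + z) := h.comp_shift x
  obtain ⟨K, k, hK⟩ := hd.growth
  have hm : Measurable fun p : ℝ × ℝ => G (x + (Real.sqrt a * p.1 + Real.sqrt b * p.2)) :=
    h.meas.comp (by fun_prop)
  have hint : Integrable (fun p : ℝ × ℝ => G (x + (Real.sqrt a * p.1 + Real.sqrt b * p.2)))
      ((gaussianReal 0 1).prod (gaussianReal 0 1)) := by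
    refine (((integrable_moment (Real.sqrt a) k).mul_prod
      (integrable_moment (Real.sqrt b) k)).const_mul K).mono' hm.aestronglyMeasurable
      (ae_of_all _ fun p => (hK _).trans ?_)
    rw [← mul_pow]
    exact mul_le_mul_of_nonneg_left
      (pow_le_pow_left₀ (by positivity) (one_add_abs_add_le _ _) k) (PG.nonneg_const hK)
  calc sm a (sm b G) x
      = ∫ g, ∫ h, G (x + (Real.sqrt a * g + Real.sqrt b * h)) ∂gaussianReal 0 1
          ∂gaussianReal 0 1 := by simp only [sm, add_assoc]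
    _ = ∫ p, G (x + (Real.sqrt a * p.1 + Real.sqrt b * p.2))
          ∂(gaussianReal 0 1).prod (gaussianReal 0 1) := (integral_prod _ hint).symm
    _ = _ := by
      refine (Vale.Agent.P157.integral_combine (φ := fun z => G (x + z)) hd.meas
        (Real.sqrt a) (Real.sqrt b)).trans ?_
      rw [Real.sq_sqrt ha, Real.sq_sqrt hb]
      rfl

end sm

/-! ### Monotonicity in the absolute value -/

namespace Inc

variable {G G' : ℝ → ℝ}

lemma even (h : Inc G) (x : ℝ) : G (-x) = G x :=
  le_antisymm (h _ _ (abs_neg x).le) (h _ _ (abs_neg x).ge)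

lemma add (h : Inc G) (h' : Inc G') : Inc fun x => G x + G' x :=
  fun x y hxy => add_le_add (h x y hxy) (h' x y hxy)

lemma const_mul (h : Inc G) {c : ℝ} (hc : 0 ≤ c) : Inc fun x => c * G x :=
  fun x y hxy => mul_le_mul_of_nonneg_left (h x y hxy) hc

lemma const (c : ℝ) : Inc fun _ => c := fun _ _ _ => le_rfl

lemma square : Inc fun x => x ^ 2 := fun _ _ hxy => sq_le_sq.2 hxy

lemma sq (h : Inc G) (h0 : ∀ x, 0 ≤ G x) : Inc fun x => G x ^ 2 :=
  fun x y hxy => pow_le_pow_left₀ (h0 x) (h x y hxy) 2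

lemma abs_shift (h : Inc G) {t : ℝ} (ht : 0 ≤ t) : Inc fun x => G (|x| + t) :=
  fun x y hxy => h _ _ (by
    rwa [abs_of_nonneg (add_nonneg (abs_nonneg x) ht), abs_of_nonneg (add_nonneg (abs_nonneg y) ht),
      add_le_add_iff_right])

end Inc

lemma map_shift {v : ℝ} (hv : 0 ≤ v) (d : ℝ) :
    (gaussianReal 0 1).map (fun g => d + Real.sqrt v * g) = gaussianReal d v.toNNReal := by
  have e : (fun g => d + Real.sqrt v * g) = (d + ·) ∘ (Real.sqrt v * ·) := rfl
  rw [e, ← Measure.map_map (measurable_const_add d) (measurable_const_mul _),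
    gaussianReal_map_const_mul, gaussianReal_map_const_add, mul_zero, zero_add, mul_one]
  congr 1
  exact NNReal.eq (by simp [Real.coe_toNNReal _ hv, Real.sq_sqrt hv])

lemma integral_neg_gauss (f : ℝ → ℝ) :
    ∫ g, f (-g) ∂gaussianReal 0 1 = ∫ g, f g ∂gaussianReal 0 1 := by
  have h := gaussianReal_map_neg (μ := 0) (v := 1)
  rw [neg_zero] at h
  conv_rhs => rw [← h]
  exact (integral_map_equiv (MeasurableEquiv.neg ℝ) f).symm

lemma odd_mean_nonneg {K : ℝ → ℝ} (hK : PG K) (hodd : ∀ z, K (-z) = -K z)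
    (hpos : ∀ z, 0 ≤ z → 0 ≤ K z) {d v : ℝ} (hd : 0 ≤ d) (hv : 0 ≤ v) :
    0 ≤ ∫ g, K (d + Real.sqrt v * g) ∂gaussianReal 0 1 := by
  rcases hv.eq_or_lt with h0 | hv'
  · simpa [← h0] using hpos d hd
  have hne : v.toNNReal ≠ 0 := by simpa [Real.toNNReal_eq_zero] using hv'
  have hi : ∀ a, Integrable K (gaussianReal a v.toNNReal) := fun a => by
    rw [← map_shift hv a]
    exact (integrable_map_measure hK.meas.aestronglyMeasurable (by fun_prop)).2 (hK.integrable a _)
  have he : ∀ a, ∫ g, K (a + Real.sqrt v * g) ∂gaussianReal 0 1 =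
      ∫ z, gaussianPDFReal a v.toNNReal z * K z := fun a => by
    rw [← integral_map (φ := fun g => a + Real.sqrt v * g) (by fun_prop)
      hK.meas.aestronglyMeasurable, map_shift hv, integral_gaussianReal_eq_integral_smul hne]
    rfl
  have hneg : ∫ g, K (-d + Real.sqrt v * g) ∂gaussianReal 0 1 =
      -∫ g, K (d + Real.sqrt v * g) ∂gaussianReal 0 1 := by
    rw [← integral_neg, ← integral_neg_gauss]
    exact integral_congr_ae (ae_of_all _ fun g => by simp only [← hodd]; ring_nf)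
  have hiv : ∀ a, Integrable fun z => gaussianPDFReal a v.toNNReal z * K z := fun a => by
    have h := hi a
    rw [gaussianReal_of_var_ne_zero _ hne, integrable_withDensity_iff_integrable_smul'
      (measurable_gaussianPDF _ _) (ae_of_all _ fun _ => gaussianPDF_lt_top)] at h
    simpa [gaussianPDF, ENNReal.toReal_ofReal (gaussianPDFReal_nonneg _ _ _)] using h
  have hnn : 0 ≤ ∫ z, (gaussianPDFReal d v.toNNReal z * K z -
      gaussianPDFReal (-d) v.toNNReal z * K z) := by
    refine integral_nonneg fun z => ?_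
    show 0 ≤ _
    rw [← sub_mul]
    have hpdf : (0 ≤ z → gaussianPDFReal (-d) v.toNNReal z ≤ gaussianPDFReal d v.toNNReal z) ∧
        (z ≤ 0 → gaussianPDFReal d v.toNNReal z ≤ gaussianPDFReal (-d) v.toNNReal z) := by
      simp only [gaussianPDFReal]
      constructor <;> intro hz <;>
        refine mul_le_mul_of_nonneg_left (Real.exp_le_exp.2 ?_) (by positivity) <;>
        refine div_le_div_of_nonneg_right ?_ (by positivity) <;> nlinarith
    rcases le_total 0 z with hz | hz
    · exact mul_nonneg (sub_nonneg.2 (hpdf.1 hz)) (hpos z hz)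
    · refine mul_nonneg_of_nonpos_of_nonpos (sub_nonpos.2 (hpdf.2 hz)) ?_
      have h := hpos (-z) (neg_nonneg.2 hz)
      rw [hodd] at h
      linarith
  rw [integral_sub (hiv d) (hiv (-d)), ← he, ← he, hneg] at hnn
  linarith

lemma inc_sm {G : ℝ → ℝ} (h : Inc G) (hp : PG G) {δ : ℝ} (hδ : 0 ≤ δ) : Inc (sm δ G) := by
  have heven : ∀ x, sm δ G (-x) = sm δ G x := fun x => by
    rw [sm, sm, ← integral_neg_gauss]
    refine integral_congr_ae (ae_of_all _ fun g => ?_)
    show G (-x + Real.sqrt δ * -g) = G (x + Real.sqrt δ * g)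
    rw [← h.even]
    ring_nf
  have habs : ∀ z, sm δ G |z| = sm δ G z := fun z => by
    rcases abs_choice z with e | e <;> simp only [e, heven]
  intro x y hxy
  rw [← habs x, ← habs y]
  set c := (|x| + |y|) / 2 with hc
  set d := (|y| - |x|) / 2 with hd
  have hc0 : 0 ≤ c := by positivity
  have hd0 : 0 ≤ d := div_nonneg (sub_nonneg.2 hxy) two_pos.le
  have hK : PG fun z => G (c + z) - G (c - z) := by
    refine (hp.comp_shift c).sub ?_
    have e : (fun z => G (c - z)) = fun z => G (-c + z) :=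
      funext fun z => by rw [← h.even]; ring_nf
    rw [e]
    exact hp.comp_shift _
  have hpos := odd_mean_nonneg hK (fun z => by ring_nf) (fun z hz => sub_nonneg.2 (h _ _ (by
    rw [abs_of_nonneg (add_nonneg hc0 hz), abs_le]
    constructor <;> linarith))) hd0 hδ
  have i1 := hp.integrable |y| (Real.sqrt δ)
  have i2 := hp.integrable |x| (-Real.sqrt δ)
  have e : ∀ g, G (c + (d + Real.sqrt δ * g)) - G (c - (d + Real.sqrt δ * g)) =
      G (|y| + Real.sqrt δ * g) - G (|x| + -Real.sqrt δ * g) := fun g => by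
    congr 2 <;> rw [hc, hd] <;> ring
  simp only [e] at hpos
  rw [integral_sub i1 i2] at hpos
  have e2 : ∫ g, G (|x| + -Real.sqrt δ * g) ∂gaussianReal 0 1 = sm δ G |x| := by
    rw [sm, ← integral_neg_gauss]
    exact integral_congr_ae (ae_of_all _ fun g => by simp)
  rw [e2] at hpos
  exact sub_nonneg.1 hpos

/-- Smoothing dominates a shift by at most `t`. -/
lemma sm_shift_le {G : ℝ → ℝ} (h : Inc G) (hp : PG G) {δ : ℝ} (hδ : 0 ≤ δ) {t : ℝ} (ht : 0 ≤ t)
    (x : ℝ) : sm δ G (|x| + t) ≤ sm δ (fun z => G (|z| + t)) x := by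
  have hi := inc_sm (h.abs_shift ht) (hp.comp_abs_shift t) hδ
  refine le_trans ?_ (hi |x| x (abs_abs x).le)
  refine integral_mono (hp.integrable _ _) ((hp.comp_abs_shift t).integrable _ _) fun g => h _ _ ?_
  rw [abs_of_nonneg (add_nonneg (abs_nonneg (|x| + Real.sqrt δ * g)) ht), abs_le]
  constructor <;> linarith [le_abs_self (|x| + Real.sqrt δ * g),
    neg_abs_le (|x| + Real.sqrt δ * g)]

end Vale.Agent.P166.NW.Gap
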