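import Vale.Agent.P166.NW.Base
import Vale.Agent.P157.Parisi.Main.SmoothOf

/-! The regularised potential: smoothness, order, symmetry, semiconvexity. -/

noncomputable section

open MeasureTheory ProbabilityTheory

namespace Vale.Agent.P166.NW.Gap

open Vale.Agent.P157.Parisi

variable {θ ε : ℝ}

/-- Monotone in the absolute value. -/
def Inc (G : ℝ → ℝ) : Prop := ∀ x y, |x| ≤ |y| → G x ≤ G y

/-- The difference of the two potentials. -/
def hpot (θ ε z : ℝ) : ℝ := epsPot θ ε z - quadPot θ z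

lemma quad_le_zero (hθ : 0 < θ) (z : ℝ) : quadPot θ z ≤ 0 := by
  unfold quadPot
  nlinarith [mul_nonneg hθ.le (sq_nonneg z)]

lemma arg_pos (he : 0 < ε) (he1 : ε < 1) (z : ℝ) :
    0 < ε + (1 - ε) * Real.exp (quadPot θ z) :=
  add_pos he (mul_pos (by linarith) (Real.exp_pos _))

lemma eps_le_zero (hθ : 0 < θ) (he : 0 < ε) (he1 : ε < 1) (z : ℝ) : epsPot θ ε z ≤ 0 := by
  refine (Real.log_nonpos (arg_pos he he1 z).le ?_)
  have := Real.exp_le_one_iff.2 (quad_le_zero hθ z)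
  nlinarith

lemma quad_le_eps (hθ : 0 < θ) (he : 0 < ε) (he1 : ε < 1) (z : ℝ) :
    quadPot θ z ≤ epsPot θ ε z := by
  rw [epsPot, Real.le_log_iff_exp_le (arg_pos he he1 z)]
  have := Real.exp_le_one_iff.2 (quad_le_zero hθ z)
  nlinarith

lemma eps_antitone (hθ : 0 < θ) (he : 0 < ε) (he1 : ε < 1) {x y : ℝ} (h : |x| ≤ |y|) :
    epsPot θ ε y ≤ epsPot θ ε x := by
  refine Real.log_le_log (arg_pos he he1 y) ?_
  have h2 : x ^ 2 ≤ y ^ 2 := sq_le_sq.2 h
  have : Real.exp (quadPot θ y) ≤ Real.exp (quadPot θ x) := Real.exp_le_exp.2 (by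
    unfold quadPot; nlinarith)
  nlinarith

lemma hpot_eq (he : 0 < ε) (he1 : ε < 1) (z : ℝ) :
    hpot θ ε z = Real.log (1 + ε * (Real.exp (-quadPot θ z) - 1)) := by
  have e : 1 + ε * (Real.exp (-quadPot θ z) - 1) =
      (ε + (1 - ε) * Real.exp (quadPot θ z)) / Real.exp (quadPot θ z) := by
    rw [Real.exp_neg]; field_simp; ring
  rw [e, Real.log_div (arg_pos he he1 z).ne' (Real.exp_pos _).ne', Real.log_exp]
  rfl

lemma hpot_nonneg (hθ : 0 < θ) (he : 0 < ε) (he1 : ε < 1) (z : ℝ) : 0 ≤ hpot θ ε z :=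
  sub_nonneg.2 (quad_le_eps hθ he he1 z)

lemma hpot_le (hθ : 0 < θ) (he : 0 < ε) (he1 : ε < 1) (z : ℝ) : hpot θ ε z ≤ θ * z ^ 2 / 2 := by
  have := eps_le_zero hθ he he1 z
  simp only [hpot, quadPot]
  linarith

lemma hpot_inc (hθ : 0 < θ) (he : 0 < ε) (he1 : ε < 1) : Inc (hpot θ ε) := by
  intro x y h
  have h2 : x ^ 2 ≤ y ^ 2 := sq_le_sq.2 h
  have hx : 1 ≤ Real.exp (-quadPot θ x) :=
    Real.one_le_exp (neg_nonneg.2 (quad_le_zero hθ x))
  have hle : Real.exp (-quadPot θ x) ≤ Real.exp (-quadPot θ y) := Real.exp_le_exp.2 (by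
    unfold quadPot; nlinarith)
  rw [hpot_eq he he1, hpot_eq he he1]
  exact Real.log_le_log (by nlinarith) (by nlinarith)

lemma continuous_eps (he : 0 < ε) (he1 : ε < 1) : Continuous (epsPot θ ε) := by
  refine Continuous.log ?_ fun z => (arg_pos he he1 z).ne'
  unfold quadPot
  fun_prop

lemma continuous_hpot (he : 0 < ε) (he1 : ε < 1) : Continuous (hpot θ ε) := by
  refine (continuous_eps he he1).sub ?_
  unfold quadPot
  fun_prop

/-- The share of the quadratic branch. -/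
def wq (θ ε z : ℝ) : ℝ :=
  (1 - ε) * Real.exp (quadPot θ z) / (ε + (1 - ε) * Real.exp (quadPot θ z))

lemma wq_mem (he : 0 < ε) (he1 : ε < 1) (z : ℝ) :
    0 ≤ wq θ ε z ∧ wq θ ε z ≤ 1 ∧ wq θ ε z ≤ Real.exp (quadPot θ z) / ε := by
  have hp := arg_pos (θ := θ) he he1 z
  have hn : 0 ≤ (1 - ε) * Real.exp (quadPot θ z) := mul_nonneg (by linarith) (Real.exp_pos _).le
  refine ⟨div_nonneg hn hp.le, (div_le_one hp).2 (by linarith), ?_⟩
  refine div_le_div₀ (Real.exp_pos _).le ?_ he (by linarith)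
  nlinarith [Real.exp_pos (quadPot θ z)]

lemma hasDerivAt_quad (z : ℝ) : HasDerivAt (quadPot θ) (-(θ * z)) z := by
  refine ((((hasDerivAt_pow 2 z).const_mul θ).fun_neg).div_const 2).congr_deriv ?_
  simp; ring

lemma hasDerivAt_eps (he : 0 < ε) (he1 : ε < 1) (z : ℝ) :
    HasDerivAt (epsPot θ ε) (-(θ * z) * wq θ ε z) z := by
  refine ((((hasDerivAt_quad (θ := θ) z).exp.const_mul (1 - ε)).const_add ε).log
    (arg_pos he he1 z).ne').congr_deriv ?_
  simp only [wq]; ring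

lemma hasDerivAt_wq (he : 0 < ε) (he1 : ε < 1) (z : ℝ) :
    HasDerivAt (wq θ ε) (-(θ * z) * wq θ ε z * (1 - wq θ ε z)) z := by
  have h1 := (hasDerivAt_quad (θ := θ) z).exp.const_mul (1 - ε)
  refine (h1.fun_div (h1.const_add ε) (arg_pos he he1 z).ne').congr_deriv ?_
  have := (arg_pos (θ := θ) he he1 z).ne'
  simp only [wq]
  field_simp
  ring

/-- The second derivative of `wq`. -/
def wq2 (θ ε z : ℝ) : ℝ :=
  -θ * (wq θ ε z * (1 - wq θ ε z)) +
    -(θ * z) * (-(θ * z) * wq θ ε z * (1 - wq θ ε z)) * (1 - 2 * wq θ ε z)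

lemma hasDerivAt_wq1 (he : 0 < ε) (he1 : ε < 1) (z : ℝ) :
    HasDerivAt (fun y => -(θ * y) * wq θ ε y * (1 - wq θ ε y)) (wq2 θ ε z) z := by
  have hw := hasDerivAt_wq (θ := θ) he he1 z
  refine ((((hasDerivAt_id z).const_mul θ).fun_neg.fun_mul hw).fun_mul
    (hw.const_sub 1)).congr_deriv ?_
  simp only [wq2, id_eq]
  ring

lemma deriv_eps (he : 0 < ε) (he1 : ε < 1) :
    deriv (epsPot θ ε) = fun z => -(θ * z) * wq θ ε z :=
  funext fun z => (hasDerivAt_eps he he1 z).deriv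

lemma hasDerivAt_eps1 (he : 0 < ε) (he1 : ε < 1) (z : ℝ) :
    HasDerivAt (fun y => -(θ * y) * wq θ ε y)
      (-θ * wq θ ε z + -(θ * z) * (-(θ * z) * wq θ ε z * (1 - wq θ ε z))) z := by
  refine (((hasDerivAt_id z).const_mul θ).fun_neg.fun_mul
    (hasDerivAt_wq (θ := θ) he he1 z)).congr_deriv ?_
  simp only [id_eq]; ring

lemma hasDerivAt_eps2 (he : 0 < ε) (he1 : ε < 1) (z : ℝ) :
    HasDerivAt (fun y => -θ * wq θ ε y + -(θ * y) * (-(θ * y) * wq θ ε y * (1 - wq θ ε y)))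
      (2 * (-θ * (-(θ * z) * wq θ ε z * (1 - wq θ ε z))) + -(θ * z) * wq2 θ ε z) z := by
  refine (((hasDerivAt_wq (θ := θ) he he1 z).const_mul (-θ)).fun_add
    (((hasDerivAt_id z).const_mul θ).fun_neg.fun_mul
      (hasDerivAt_wq1 (θ := θ) he he1 z))).congr_deriv ?_
  simp only [id_eq]; ring

lemma moment_wq (hθ : 0 < θ) (he : 0 < ε) (he1 : ε < 1) :
    ∃ B : ℝ, ∀ z, (1 + |z|) ^ 4 * wq θ ε z ≤ B := by
  refine ⟨8 * (1 + 16 / θ ^ 2) / ε, fun z => ?_⟩
  obtain ⟨h0, -, h2⟩ := wq_mem (θ := θ) he he1 z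
  refine (mul_le_mul_of_nonneg_left h2 (by positivity)).trans ?_
  rw [← mul_div_assoc]
  refine div_le_div_of_nonneg_right ?_ he.le
  set E := Real.exp (θ * z ^ 2 / 4) with hE
  have hE1 : θ * z ^ 2 / 4 ≤ E := by
    have := Real.add_one_le_exp (θ * z ^ 2 / 4); linarith
  have hE2 : 1 ≤ E := Real.one_le_exp (by positivity)
  have e : Real.exp (quadPot θ z) = (E ^ 2)⁻¹ := by
    rw [hE, sq, ← Real.exp_add, ← Real.exp_neg]; congr 1; simp [quadPot]; ring
  rw [e, ← div_eq_mul_inv, div_le_iff₀ (by positivity)]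
  have hz4 : z ^ 4 ≤ 16 / θ ^ 2 * E ^ 2 := by
    rw [div_mul_eq_mul_div, le_div_iff₀ (by positivity)]
    have := pow_le_pow_left₀ (by positivity) hE1 2
    nlinarith
  have hsum : (1 + |z|) ^ 4 ≤ 8 * (1 + z ^ 4) := by
    have e1 : (1 + |z|) ^ 2 ≤ 2 * (1 + z ^ 2) := by nlinarith [sq_nonneg (|z| - 1), sq_abs z]
    nlinarith [pow_le_pow_left₀ (sq_nonneg (1 + |z|)) e1 2, sq_nonneg (z ^ 2 - 1)]
  nlinarith

lemma exists_smooth (hθ : 0 < θ) (he : 0 < ε) (he1 : ε < 1) : ∃ A, Smooth (epsPot θ ε) A := by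
  obtain ⟨B, hB⟩ := moment_wq hθ he he1
  have d1 := deriv_eps (θ := θ) he he1
  have d2 : deriv (deriv (epsPot θ ε)) = fun z =>
      -θ * wq θ ε z + -(θ * z) * (-(θ * z) * wq θ ε z * (1 - wq θ ε z)) := by
    rw [d1]; exact funext fun z => (hasDerivAt_eps1 he he1 z).deriv
  have d3 : deriv (deriv (deriv (epsPot θ ε))) = fun z =>
      2 * (-θ * (-(θ * z) * wq θ ε z * (1 - wq θ ε z))) + -(θ * z) * wq2 θ ε z := by
    rw [d2]; exact funext fun z => (hasDerivAt_eps2 he he1 z).deriv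
  refine ⟨-Real.log ε + (1 + θ) ^ 3 * (6 * B), ?_⟩
  have hlog : 0 ≤ -Real.log ε := neg_nonneg.2 (Real.log_nonpos he.le he1.le)
  have hB0 : 0 ≤ B :=
    (mul_nonneg (by positivity) (wq_mem (θ := θ) he he1 0).1).trans (hB 0)
  have hb : ∀ z (j : ℕ), j ≤ 4 → |z| ^ j * wq θ ε z ≤ B := fun z j hj => by
    refine (mul_le_mul_of_nonneg_right ?_ (wq_mem (θ := θ) he he1 z).1).trans (hB z)
    exact (pow_le_pow_left₀ (abs_nonneg z) (by linarith [abs_nonneg z]) j).trans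
      (pow_le_pow_right₀ (by linarith [abs_nonneg z]) hj)
  have hv : ∀ z, |1 - wq θ ε z| ≤ 1 ∧ |1 - 2 * wq θ ε z| ≤ 1 := fun z => by
    obtain ⟨h0, h1, -⟩ := wq_mem (θ := θ) he he1 z
    constructor <;> rw [abs_le] <;> constructor <;> linarith
  have hθ1 : θ ≤ (1 + θ) ^ 3 := by nlinarith [sq_nonneg θ, pow_nonneg hθ.le 3]
  have hθ2 : θ ^ 2 ≤ (1 + θ) ^ 3 := by nlinarith [sq_nonneg θ, pow_nonneg hθ.le 3]
  have hθ3 : θ ^ 3 ≤ (1 + θ) ^ 3 := pow_le_pow_left₀ hθ.le (by linarith) 3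
  have hterm : ∀ (z : ℝ) (j : ℕ), j ≤ 4 → ∀ c : ℝ, 0 ≤ c → c ≤ (1 + θ) ^ 3 →
      c * (|z| ^ j * wq θ ε z) ≤ (1 + θ) ^ 3 * B := fun z j hj c hc hc' =>
    mul_le_mul hc' (hb z j hj) (mul_nonneg (by positivity) (wq_mem (θ := θ) he he1 z).1)
      (by positivity)
  have hw1 : ∀ z, |-(θ * z) * wq θ ε z * (1 - wq θ ε z)| ≤ θ * (|z| * wq θ ε z) := fun z => by
    rw [abs_mul, abs_mul, abs_neg, abs_mul, abs_of_pos hθ, abs_of_nonneg (wq_mem he he1 z).1,
      mul_assoc θ]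
    exact mul_le_of_le_one_right
      (mul_nonneg hθ.le (mul_nonneg (abs_nonneg _) (wq_mem he he1 z).1)) (hv z).1
  refine ⟨fun z => (hasDerivAt_eps he he1 z).differentiableAt,
    fun z => by rw [d1]; exact (hasDerivAt_eps1 he he1 z).differentiableAt,
    fun z => by rw [d2]; exact (hasDerivAt_eps2 he he1 z).differentiableAt, fun z => ?_,
    fun z => ?_, fun z => ?_, fun z => ?_⟩
  · have h1 : Real.log ε ≤ epsPot θ ε z := Real.log_le_log he
      (le_add_of_nonneg_right (mul_nonneg (by linarith) (Real.exp_pos _).le))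
    have h2 := eps_le_zero hθ he he1 z
    have : 0 ≤ (1 + θ) ^ 3 * (6 * B) := by positivity
    rw [abs_le]; constructor <;> linarith
  · rw [d1]
    have h := hterm z 1 (by norm_num) θ hθ.le hθ1
    rw [pow_one] at h
    rw [abs_mul, abs_neg, abs_mul, abs_of_pos hθ, abs_of_nonneg (wq_mem he he1 z).1, mul_assoc]
    have : 0 ≤ (1 + θ) ^ 3 * B := by positivity
    linarith
  · rw [d2]
    refine (abs_add_le _ _).trans ?_
    have h0 := hterm z 0 (by norm_num) θ hθ.le hθ1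
    have h2 := hterm z 2 (by norm_num) (θ ^ 2) (sq_nonneg θ) hθ2
    have e1 : |-θ * wq θ ε z| = θ * (|z| ^ 0 * wq θ ε z) := by
      rw [abs_mul, abs_neg, abs_of_pos hθ, abs_of_nonneg (wq_mem he he1 z).1]; ring
    have e2 : |-(θ * z) * (-(θ * z) * wq θ ε z * (1 - wq θ ε z))| ≤
        θ ^ 2 * (|z| ^ 2 * wq θ ε z) := by
      rw [abs_mul, abs_neg, abs_mul θ, abs_of_pos hθ]
      exact (mul_le_mul_of_nonneg_left (hw1 z) (by positivity)).trans (le_of_eq (by ring))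
    have : 0 ≤ (1 + θ) ^ 3 * B := by positivity
    linarith
  · rw [d3]
    refine (abs_add_le _ _).trans ?_
    have h1 := hterm z 1 (by norm_num) (θ ^ 2) (sq_nonneg θ) hθ2
    have h3 := hterm z 3 (by norm_num) (θ ^ 3) (pow_nonneg hθ.le 3) hθ3
    have e1 : |2 * (-θ * (-(θ * z) * wq θ ε z * (1 - wq θ ε z)))| ≤
        2 * (θ ^ 2 * (|z| ^ 1 * wq θ ε z)) := by
      rw [abs_mul, abs_two, abs_mul, abs_neg, abs_of_pos hθ]
      have := mul_le_mul_of_nonneg_left (hw1 z) hθ.le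
      linarith
    have hw2 : |wq2 θ ε z| ≤ θ * wq θ ε z + θ ^ 2 * (|z| ^ 2 * wq θ ε z) := by
      refine (abs_add_le _ _).trans (add_le_add ?_ ?_)
      · rw [abs_mul, abs_neg, abs_of_pos hθ, abs_mul, abs_of_nonneg (wq_mem he he1 z).1]
        exact mul_le_mul_of_nonneg_left (mul_le_of_le_one_right (wq_mem he he1 z).1 (hv z).1) hθ.le
      · rw [abs_mul, abs_mul, abs_neg, abs_mul θ, abs_of_pos hθ]
        refine (mul_le_mul (mul_le_mul_of_nonneg_left (hw1 z) (by positivity)) (hv z).2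
          (abs_nonneg _) (mul_nonneg (by positivity)
            (mul_nonneg hθ.le (mul_nonneg (abs_nonneg _) (wq_mem he he1 z).1)))).trans
          (le_of_eq (by ring))
    have e2 : |-(θ * z) * wq2 θ ε z| ≤
        θ ^ 2 * (|z| ^ 1 * wq θ ε z) + θ ^ 3 * (|z| ^ 3 * wq θ ε z) := by
      rw [abs_mul, abs_neg, abs_mul, abs_of_pos hθ]
      exact (mul_le_mul_of_nonneg_left hw2 (by positivity)).trans (le_of_eq (by ring))
    have : 0 ≤ (1 + θ) ^ 3 * B := by positivity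
    linarith

end Vale.Agent.P166.NW.Gap
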