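import Vale.Agent.P166.NW.Gap.Mean
import Vale.Agent.P157.Parisi.ModA.Layer
import Vale.Agent.P146.Calc

/-! One step of the recursion: domination, comparison, semiconvexity and the second moment. -/

noncomputable section

open MeasureTheory ProbabilityTheory

namespace Vale.Agent.P166.NW.Gap

open Vale.Agent.P157.Parisi

variable {m δ C : ℝ} {F : ℝ → ℝ}

lemma integrable_wgt_pg {h : ℝ → ℝ} (hm : 0 ≤ m) (hF : CB C F) (hh : PG h) (x : ℝ) :
    Integrable (fun g => wgt m δ F x g * h (x + Real.sqrt δ * g)) (gaussianReal 0 1) :=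
  (hh.integrable x _).bdd_mul (c := Real.exp (m * C)) (continuous_wgt hF x).aestronglyMeasurable
    (ae_of_all _ fun g => by
      rw [Real.norm_eq_abs, abs_of_pos (show 0 < wgt m δ F x g from Real.exp_pos _)]
      exact (wgt_mem hm hF x g).2)

lemma pg_tilt {h : ℝ → ℝ} (hm : 0 ≤ m) (hF : CB C F) (hh : PG h) : PG (tilt m δ F h) := by
  obtain ⟨K, k, hK⟩ := hh.growth
  have hw : Measurable fun p : ℝ × ℝ => Real.exp (m * F (p.1 + Real.sqrt δ * p.2)) :=
    ((hF.cont.measurable.comp (by fun_prop)).const_mul m).exp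
  refine ⟨(measurable_param (f := fun x g => Real.exp (m * F (x + Real.sqrt δ * g)) *
      h (x + Real.sqrt δ * g)) (hw.mul (hh.meas.comp (by fun_prop)))).div
      (measurable_param (f := fun x g => Real.exp (m * F (x + Real.sqrt δ * g))) hw),
    Real.exp (m * C) / Real.exp (-(m * C)) *
      (K * ∫ g, (1 + |Real.sqrt δ * g|) ^ k ∂gaussianReal 0 1), k, fun x => ?_⟩
  have hlo := (integral_wgt_mem (δ := δ) hm hF x).1
  have hI : |∫ g, wgt m δ F x g * h (x + Real.sqrt δ * g) ∂gaussianReal 0 1| ≤
      Real.exp (m * C) * ∫ g, |h (x + Real.sqrt δ * g)| ∂gaussianReal 0 1 := by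
    rw [← integral_const_mul]
    refine abs_integral_le_integral_abs.trans (integral_mono (integrable_wgt_pg hm hF hh x).abs
      ((hh.integrable x _).abs.const_mul _) fun g => ?_)
    simp only [abs_mul, abs_of_pos (show 0 < wgt m δ F x g from Real.exp_pos _)]
    exact mul_le_mul_of_nonneg_right (wgt_mem hm hF x g).2 (abs_nonneg _)
  rw [tilt_eq, abs_div, abs_of_pos (integral_wgt_pos hm hF x)]
  refine (div_le_div₀ (le_trans (abs_nonneg _) hI) hI (Real.exp_pos _) hlo).trans ?_
  rw [mul_div_right_comm, mul_assoc (Real.exp (m * C) / Real.exp (-(m * C)))]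
  exact mul_le_mul_of_nonneg_left (abs_sm_le hh.meas hK δ x) (by positivity)

lemma tilt_le_tilt {a b : ℝ → ℝ} (hm : 0 ≤ m) (hF : CB C F) (ha : PG a) (hb : PG b)
    (hle : ∀ y, a y ≤ b y) (x : ℝ) : tilt m δ F a x ≤ tilt m δ F b x :=
  div_le_div_of_nonneg_right (integral_mono (integrable_wgt_pg hm hF ha x)
    (integrable_wgt_pg hm hF hb x) fun _ =>
      mul_le_mul_of_nonneg_left (hle _) (Real.exp_pos _).le) (integral_wgt_pos hm hF x).le

lemma abs_tilt_sub_le {a b c : ℝ → ℝ} (hm : 0 ≤ m) (hF : CB C F) (ha : PG a) (hb : PG b)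
    (hc : PG c) (hle : ∀ y, |a y - b y| ≤ c y) (x : ℝ) :
    |tilt m δ F a x - tilt m δ F b x| ≤ tilt m δ F c x := by
  have hpos := integral_wgt_pos (δ := δ) hm hF x
  have ia := integrable_wgt_pg (δ := δ) hm hF ha x
  have ib := integrable_wgt_pg (δ := δ) hm hF hb x
  rw [tilt_eq, tilt_eq, tilt_eq, ← sub_div, abs_div, abs_of_pos hpos, ← integral_sub ia ib]
  refine div_le_div_of_nonneg_right (abs_integral_le_integral_abs.trans
    (integral_mono (ia.sub' ib).abs (integrable_wgt_pg hm hF hc x) fun g => ?_)) hpos.le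
  rw [← mul_sub, abs_mul, abs_of_pos (show 0 < wgt m δ F x g from Real.exp_pos _)]
  exact mul_le_mul_of_nonneg_left (hle _) (Real.exp_pos _).le

lemma tilt_affine {a : ℝ → ℝ} (hm : 0 ≤ m) (hF : CB C F) (ha : PG a) (K S x : ℝ) :
    tilt m δ F (fun y => K * a y + S) x = K * tilt m δ F a x + S := by
  have hpos := integral_wgt_pos (δ := δ) hm hF x
  have e : ∀ g, wgt m δ F x g * (K * a (x + Real.sqrt δ * g) + S) =
      K * (wgt m δ F x g * a (x + Real.sqrt δ * g)) + S * wgt m δ F x g := fun g => by ring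
  simp only [tilt_eq, e]
  rw [integral_add ((integrable_wgt_pg hm hF ha x).const_mul K) ((integrable_wgt hm hF x).const_mul S),
    integral_const_mul, integral_const_mul]
  field_simp

/-- A tilt that decreases in the absolute value lowers the mean of what increases. -/
lemma tilt_le_sm {G : ℝ → ℝ} (hm : 0 ≤ m) (hF : CB C F) (hdec : Inc fun y => -F y)
    (hG : Inc G) (hp : PG G) (x : ℝ) : tilt m δ F G x ≤ sm δ G x := by
  set w := wgt m δ F x with hw
  set a : ℝ → ℝ := fun g => G (x + Real.sqrt δ * g) with ha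
  have iw : Integrable w (gaussianReal 0 1) := integrable_wgt hm hF x
  have ia : Integrable a (gaussianReal 0 1) := hp.integrable x _
  have iwa : Integrable (fun g => w g * a g) (gaussianReal 0 1) := integrable_wgt_pg hm hF hp x
  have hpt : ∀ g h, (w g - w h) * (a g - a h) ≤ 0 := fun g h => by
    rcases le_total |x + Real.sqrt δ * g| |x + Real.sqrt δ * h| with e | e
    · exact mul_nonpos_of_nonneg_of_nonpos (sub_nonneg.2 (Real.exp_le_exp.2
        (mul_le_mul_of_nonneg_left (neg_le_neg_iff.1 (hdec _ _ e)) hm))) (sub_nonpos.2 (hG _ _ e))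
    · exact mul_nonpos_of_nonpos_of_nonneg (sub_nonpos.2 (Real.exp_le_exp.2
        (mul_le_mul_of_nonneg_left (neg_le_neg_iff.1 (hdec _ _ e)) hm))) (sub_nonneg.2 (hG _ _ e))
  have h1 : ∀ g, (w g * a g - w g * ∫ h, a h ∂gaussianReal 0 1) -
      ((∫ h, w h ∂gaussianReal 0 1) * a g - ∫ h, w h * a h ∂gaussianReal 0 1) ≤ 0 := fun g => by
    have hn := integral_nonpos (μ := gaussianReal 0 1) (f := fun h => (w g - w h) * (a g - a h))
      fun h => hpt g h
    have e : ∀ h, (w g - w h) * (a g - a h) =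
        (w g * a g - w g * a h) - (a g * w h - w h * a h) := fun h => by ring
    simp only [e] at hn
    rw [integral_sub ((integrable_const _).sub' (ia.const_mul _)) ((iw.const_mul _).sub' iwa),
      integral_sub (integrable_const _) (ia.const_mul _), integral_sub (iw.const_mul _) iwa,
      integral_const_mul, integral_const_mul] at hn
    simp only [integral_const_mul, integral_const, probReal_univ, one_smul] at hn
    linarith
  have h2 := integral_nonpos (μ := gaussianReal 0 1) h1
  rw [integral_sub (iwa.sub' (iw.mul_const _)) ((ia.const_mul _).sub' (integrable_const _)),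
    integral_sub iwa (iw.mul_const _), integral_sub (ia.const_mul _) (integrable_const _),
    integral_mul_const, integral_const_mul] at h2
  simp only [integral_const, probReal_univ, one_smul] at h2
  rw [tilt_eq, div_le_iff₀ (integral_wgt_pos hm hF x)]
  show ∫ g, w g * a g ∂gaussianReal 0 1 ≤ (∫ g, a g ∂gaussianReal 0 1) * ∫ g, w g ∂gaussianReal 0 1
  linarith

lemma dec_layer (hm : 0 < m) (hδ : 0 ≤ δ) (hF : CB C F) (hdec : Inc fun y => -F y) :
    Inc fun y => -layer m δ F y := by
  have hp : PG fun y => -Real.exp (m * F y) :=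
    ⟨((hF.cont.measurable.const_mul m).exp).neg, Real.exp (m * C), 0, fun y => by
      rw [abs_neg, abs_of_pos (Real.exp_pos _), pow_zero, mul_one]
      exact Real.exp_le_exp.2 (mul_le_mul_of_nonneg_left ((le_abs_self _).trans (hF.bound y)) hm.le)⟩
  have hi : Inc fun y => -Real.exp (m * F y) := fun x y hxy =>
    neg_le_neg (Real.exp_le_exp.2 (mul_le_mul_of_nonneg_left (neg_le_neg_iff.1 (hdec x y hxy)) hm.le))
  intro x y hxy
  have h := inc_sm hi hp hδ x y hxy
  simp only [sm, integral_neg, neg_le_neg_iff] at h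
  exact neg_le_neg (mul_le_mul_of_nonneg_left
    (Real.log_le_log (integral_wgt_pos hm.le hF y) h) (one_div_pos.2 hm).le)

/-- A step moves the difference of two functions by at most its smoothed bound. -/
lemma layer_gap {F₀ H : ℝ → ℝ} (hm : 0 < m) (hF : CB C F)
    (hdec : Inc fun y => -F y) (hF₀ : Measurable F₀) (hH : Inc H) (hHp : PG H)
    (hle : ∀ y, F₀ y ≤ F y) (hub : ∀ y, F y - F₀ y ≤ H y) (x : ℝ) :
    0 ≤ layer m δ F x - layer m δ F₀ x ∧ layer m δ F x - layer m δ F₀ x ≤ sm δ H x := by
  set w := wgt m δ F x with hw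
  set w₀ := wgt m δ F₀ x with hw₀
  have iw : Integrable w (gaussianReal 0 1) := integrable_wgt hm.le hF x
  have hpos : 0 < ∫ g, w g ∂gaussianReal 0 1 := integral_wgt_pos hm.le hF x
  have hw01 : ∀ g, w₀ g ≤ w g := fun g =>
    Real.exp_le_exp.2 (mul_le_mul_of_nonneg_left (hle _) hm.le)
  have iw₀ : Integrable w₀ (gaussianReal 0 1) :=
    iw.mono' ((hF₀.comp (by fun_prop)).const_mul m).exp.aestronglyMeasurable
      (ae_of_all _ fun g => by
        rw [Real.norm_eq_abs, abs_of_pos (show 0 < w₀ g from Real.exp_pos _)]; exact hw01 g)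
  have hD : PG fun y => F y - F₀ y := hHp.of_abs_le (hF.cont.measurable.sub hF₀) fun y => by
    rw [abs_of_nonneg (sub_nonneg.2 (hle y))]
    exact (hub y).trans (le_abs_self _)
  set a := tilt m δ F (fun y => F y - F₀ y) x with ha
  have ha' : a ≤ sm δ H x :=
    (tilt_le_tilt hm.le hF hD hHp hub x).trans (tilt_le_sm hm.le hF hdec hH hHp x)
  have iwD := integrable_wgt_pg (δ := δ) hm.le hF hD x
  have hlow : Real.exp (-(m * a)) * ∫ g, w g ∂gaussianReal 0 1 ≤ ∫ g, w₀ g ∂gaussianReal 0 1 := by
    have hpt : ∀ g, Real.exp (-(m * a)) * ((1 + m * a) * w g -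
        m * (w g * (F (x + Real.sqrt δ * g) - F₀ (x + Real.sqrt δ * g)))) ≤ w₀ g := fun g => by
      have e : w₀ g = Real.exp (-(m * a)) * (w g *
          Real.exp (m * (a - (F (x + Real.sqrt δ * g) - F₀ (x + Real.sqrt δ * g))))) := by
        simp only [hw, hw₀, wgt, ← Real.exp_add]
        ring_nf
      rw [e]
      refine mul_le_mul_of_nonneg_left ?_ (Real.exp_pos _).le
      nlinarith [Real.add_one_le_exp (m * (a - (F (x + Real.sqrt δ * g) -
        F₀ (x + Real.sqrt δ * g)))), show 0 < w g from Real.exp_pos _]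
    have h := integral_mono (((iw.const_mul (1 + m * a)).sub' (iwD.const_mul m)).const_mul
      (Real.exp (-(m * a)))) iw₀ hpt
    rw [integral_const_mul, integral_sub (iw.const_mul _) (iwD.const_mul _), integral_const_mul,
      integral_const_mul] at h
    refine le_of_eq_of_le ?_ h
    have e : a * ∫ g, w g ∂gaussianReal 0 1 =
        ∫ g, wgt m δ F x g * (F (x + Real.sqrt δ * g) - F₀ (x + Real.sqrt δ * g))
          ∂gaussianReal 0 1 := by
      rw [ha, tilt_eq, div_mul_cancel₀ _ hpos.ne']
    linear_combination (-Real.exp (-(m * a)) * m) * e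
  have hpos₀ : 0 < ∫ g, w₀ g ∂gaussianReal 0 1 := (mul_pos (Real.exp_pos _) hpos).trans_le hlow
  have l1 := Real.log_le_log hpos₀ (integral_mono iw₀ iw hw01)
  have l2 := Real.log_le_log (mul_pos (Real.exp_pos _) hpos) hlow
  rw [Real.log_mul (Real.exp_pos _).ne' hpos.ne', Real.log_exp] at l2
  rw [layer_eq, layer_eq, ← hw, ← hw₀, ← mul_sub]
  refine ⟨mul_nonneg (one_div_pos.2 hm).le (sub_nonneg.2 l1), ?_⟩
  refine le_trans ?_ ha'
  rw [one_div, inv_mul_le_iff₀ hm]
  linarith

/-- Semiconvexity passes through a step. -/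
lemma layer_semiconvex {θ : ℝ} (hm : 0 < m) (hF : CB C F)
    (hc : ConvexOn ℝ Set.univ fun y => F y + θ * y ^ 2 / 2) :
    ConvexOn ℝ Set.univ fun y => layer m δ F y + θ * y ^ 2 / 2 := by
  refine ⟨convex_univ, fun x _ y _ a b ha hb hab => ?_⟩
  simp only [smul_eq_mul]
  set z := a * x + b * y with hz
  set M := m * (a * layer m δ F x + b * layer m δ F y +
    θ / 2 * (a * x ^ 2 + b * y ^ 2 - z ^ 2)) with hM
  have hI : ∀ v, ∫ g, wgt m δ F v g ∂gaussianReal 0 1 = Real.exp (m * layer m δ F v) := fun v => by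
    rw [layer_eq, ← mul_assoc, mul_one_div_cancel hm.ne', one_mul,
      Real.exp_log (integral_wgt_pos hm.le hF v)]
  have hpt : ∀ g, wgt m δ F z g ≤ Real.exp M *
      (a * (wgt m δ F x g / Real.exp (m * layer m δ F x)) +
        b * (wgt m δ F y g / Real.exp (m * layer m δ F y))) := fun g => by
    have hK := hc.2 (Set.mem_univ (x + Real.sqrt δ * g)) (Set.mem_univ (y + Real.sqrt δ * g))
      ha hb hab
    simp only [smul_eq_mul] at hK
    have e : a * (x + Real.sqrt δ * g) + b * (y + Real.sqrt δ * g) = z + Real.sqrt δ * g := by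
      rw [hz]; linear_combination (Real.sqrt δ * g) * hab
    rw [e] at hK
    simp only [wgt, ← Real.exp_sub]
    have hexp := convexOn_exp.2 (Set.mem_univ (m * F (x + Real.sqrt δ * g) - m * layer m δ F x))
      (Set.mem_univ (m * F (y + Real.sqrt δ * g) - m * layer m δ F y)) ha hb hab
    simp only [smul_eq_mul] at hexp
    refine le_trans ?_ (mul_le_mul_of_nonneg_left hexp (Real.exp_pos _).le)
    rw [← Real.exp_add]
    refine Real.exp_le_exp.2 ?_
    have key : F (z + Real.sqrt δ * g) ≤ a * F (x + Real.sqrt δ * g) +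
        b * F (y + Real.sqrt δ * g) + θ / 2 * (a * x ^ 2 + b * y ^ 2 - z ^ 2) := by
      have e2 : a * (x + Real.sqrt δ * g) ^ 2 + b * (y + Real.sqrt δ * g) ^ 2 -
          (z + Real.sqrt δ * g) ^ 2 = a * x ^ 2 + b * y ^ 2 - z ^ 2 := by
        rw [hz]
        linear_combination (Real.sqrt δ * g) ^ 2 * hab
      have := congrArg (fun v : ℝ => θ / 2 * v) e2
      linarith
    have := mul_le_mul_of_nonneg_left key hm.le
    rw [hM]
    linarith
  have h := integral_mono (integrable_wgt (δ := δ) hm.le hF z)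
    (((((integrable_wgt (δ := δ) hm.le hF x).div_const _).const_mul a).add
      (((integrable_wgt (δ := δ) hm.le hF y).div_const _).const_mul b)).const_mul _) hpt
  simp only [Pi.add_apply] at h
  rw [integral_const_mul, integral_add (((integrable_wgt hm.le hF x).div_const _).const_mul a)
      (((integrable_wgt hm.le hF y).div_const _).const_mul b), integral_const_mul,
    integral_const_mul, integral_div, integral_div, hI, hI, hI,
    div_self (Real.exp_pos _).ne', div_self (Real.exp_pos _).ne', mul_one, mul_one, hab, mul_one,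
    Real.exp_le_exp, hM] at h
  have := le_of_mul_le_mul_left h hm
  linarith

/-- The tilted second moment is close to that of the quadratic tilt. -/
lemma tilt_sq_gap {D u l : ℝ} {F' : ℝ → ℝ} (hm : 0 < m) (hm1 : m ≤ 1) (hδ : 0 ≤ δ) (hu : 0 ≤ u)
    (hl : 0 < l) (hF : CB C F) (hF' : CB D F') (hd : ∀ y, HasDerivAt F (F' y) y) (x : ℝ) :
    |tilt m δ F (fun y => y ^ 2) x - (x ^ 2 / (1 + m * u * δ) ^ 2 + δ / (1 + m * u * δ))| ≤
      δ * (l * x ^ 2 / 2 + tilt m δ F (fun y => l / 2 * y ^ 2 + (F' y + u * y) ^ 2 / l) x) := by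
  set w := wgt m δ F x with hw
  set s := Real.sqrt δ with hs
  set a := 1 + m * u * δ with ha
  have hs2 : s * s = δ := Real.mul_self_sqrt hδ
  have ha1 : 1 ≤ a := le_add_of_nonneg_right (by positivity)
  have hpos : 0 < ∫ g, w g ∂gaussianReal 0 1 := integral_wgt_pos hm.le hF x
  have iw : Integrable w (gaussianReal 0 1) := integrable_wgt hm.le hF x
  have hi : ∀ {G : ℝ → ℝ}, PG G → Integrable (fun g => w g * G g) (gaussianReal 0 1) := fun hG =>
    hG.integrable'.bdd_mul (c := Real.exp (m * C)) (continuous_wgt hF x).aestronglyMeasurable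
      (ae_of_all _ fun g => by
        rw [Real.norm_eq_abs, abs_of_pos (show 0 < wgt m δ F x g from Real.exp_pos _)]
        exact (wgt_mem hm.le hF x g).2)
  have py : PG fun g => x + s * g := (PG.const x).add (PG.ident.const_mul s)
  have pF' : PG fun g => F' (x + s * g) :=
    ⟨hF'.cont.measurable.comp (by fun_prop), D, 0, fun g => by simpa using hF'.bound _⟩
  have hwd : ∀ g, HasDerivAt w (w g * (m * (F' (x + s * g) * s))) g := fun g => by
    have h := (((hd (x + s * g)).comp g (((hasDerivAt_id g).const_mul s).const_add x)).const_mul m).exp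
    rw [mul_one] at h
    exact h
  have hI1 := Vale.Agent.P146.gauss_ibp_one hwd iw (hi ((pF'.mul (PG.const s)).const_mul m))
    ((hi PG.ident).congr (ae_of_all _ fun g => mul_comm _ _))
  have hI2 := Vale.Agent.P146.gauss_ibp_one (φ := fun g => w g * (x + s * g))
    (φ' := fun g => w g * (m * (F' (x + s * g) * s)) * (x + s * g) + w g * s)
    (fun g => ((hwd g).fun_mul (((hasDerivAt_id g).const_mul s).const_add x)).congr_deriv (by
      simp))
    (hi py) (((hi ((((pF'.mul (PG.const s)).const_mul m)).mul py)).congr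
      (ae_of_all _ fun g => by ring)).add (iw.mul_const s))
    ((hi (PG.ident.mul py)).congr (ae_of_all _ fun g => by ring))
  have pP : PG fun g => F' (x + s * g) + u * (x + s * g) := pF'.add (py.const_mul u)
  set W := ∫ g, w g ∂gaussianReal 0 1
  set G1 := ∫ g, w g * g ∂gaussianReal 0 1
  set G2 := ∫ g, w g * (g * (x + s * g)) ∂gaussianReal 0 1
  set Y := ∫ g, w g * (x + s * g) ∂gaussianReal 0 1
  set Y2 := ∫ g, w g * (x + s * g) ^ 2 ∂gaussianReal 0 1
  set P := ∫ g, w g * (F' (x + s * g) + u * (x + s * g)) ∂gaussianReal 0 1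
  set Q := ∫ g, w g * ((x + s * g) * (F' (x + s * g) + u * (x + s * g))) ∂gaussianReal 0 1
  have eY : Y = x * W + s * G1 := by
    rw [← integral_const_mul, ← integral_const_mul, ← integral_add (iw.const_mul x)
      ((hi PG.ident).const_mul s)]
    exact integral_congr_ae (ae_of_all _ fun g => by ring)
  have eY2 : Y2 = x * Y + s * G2 := by
    rw [← integral_const_mul, ← integral_const_mul, ← integral_add ((hi py).const_mul x)
      ((hi (PG.ident.mul py)).const_mul s)]
    exact integral_congr_ae (ae_of_all _ fun g => by ring)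
  have eG1 : G1 = m * s * (P - u * Y) := by
    have e1 : G1 = ∫ g, g * w g ∂gaussianReal 0 1 :=
      integral_congr_ae (ae_of_all _ fun g => mul_comm _ _)
    rw [e1, hI1, ← integral_const_mul, ← integral_sub (hi pP) ((hi py).const_mul u),
      ← integral_const_mul]
    exact integral_congr_ae (ae_of_all _ fun g => by ring)
  have eG2 : G2 = s * W + m * s * (Q - u * Y2) := by
    have e1 : G2 = ∫ g, g * (w g * (x + s * g)) ∂gaussianReal 0 1 :=
      integral_congr_ae (ae_of_all _ fun g => by ring)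
    rw [e1, hI2, ← integral_const_mul, ← integral_const_mul,
      ← integral_sub (hi (py.mul pP)) ((hi py.sq).const_mul u), ← integral_const_mul,
      ← integral_add (iw.const_mul s) (((hi (py.mul pP)).sub' ((hi py.sq).const_mul u)).const_mul _)]
    exact integral_congr_ae (ae_of_all _ fun g => by ring)
  have k1 : a * Y = x * W + m * δ * P := by
    rw [ha]
    linear_combination eY + s * eG1 + m * (P - u * Y) * hs2
  have k2 : a * Y2 = x * Y + δ * W + m * δ * Q := by
    rw [ha]
    linear_combination eY2 + s * eG2 + (W + m * (Q - u * Y2)) * hs2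
  have pT : PG fun g => l / 2 * (x + s * g) ^ 2 + (F' (x + s * g) + u * (x + s * g)) ^ 2 / l := by
    simpa only [div_eq_mul_inv] using (py.sq.const_mul (l / 2)).add (pP.sq.mul (PG.const l⁻¹))
  have hbd : |x * P| + |Q| ≤ l * x ^ 2 / 2 * W +
      ∫ g, w g * (l / 2 * (x + s * g) ^ 2 + (F' (x + s * g) + u * (x + s * g)) ^ 2 / l)
        ∂gaussianReal 0 1 := by
    show |x * ∫ g, w g * (F' (x + s * g) + u * (x + s * g)) ∂gaussianReal 0 1| +
      |∫ g, w g * ((x + s * g) * (F' (x + s * g) + u * (x + s * g))) ∂gaussianReal 0 1| ≤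
      l * x ^ 2 / 2 * (∫ g, w g ∂gaussianReal 0 1) + _
    rw [← integral_const_mul x, ← integral_const_mul (l * x ^ 2 / 2),
      ← integral_add (iw.const_mul _) (hi pT)]
    refine (add_le_add abs_integral_le_integral_abs abs_integral_le_integral_abs).trans ?_
    rw [← integral_add ((hi pP).const_mul x).abs (hi (py.mul pP)).abs]
    refine integral_mono (((hi pP).const_mul x).abs.add (hi (py.mul pP)).abs)
      ((iw.const_mul _).add (hi pT)) fun g => ?_
    have hw0 : 0 < w g := Real.exp_pos _
    simp only [abs_mul, abs_of_pos hw0]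
    set y := x + s * g
    set d := F' y + u * y
    have h1 : |x| * |d| + |y| * |d| ≤ l / 2 * x ^ 2 + (l / 2 * y ^ 2 + d ^ 2 / l) := by
      have e : ∀ v, |v| * |d| ≤ l / 2 * v ^ 2 + d ^ 2 / (2 * l) := fun v => by
        have : 0 ≤ (l * |v| - |d|) ^ 2 / (2 * l) := by positivity
        have e2 : (l * |v| - |d|) ^ 2 / (2 * l) =
            l / 2 * v ^ 2 + d ^ 2 / (2 * l) - |v| * |d| := by
          rw [← sq_abs v, ← sq_abs d]; field_simp; ring
        linarith
      have := e x
      have := e y
      have : d ^ 2 / (2 * l) + d ^ 2 / (2 * l) = d ^ 2 / l := by ring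
      linarith
    have := mul_le_mul_of_nonneg_left h1 hw0.le
    linarith
  have key : tilt m δ F (fun y => y ^ 2) x - (x ^ 2 / a ^ 2 + δ / a) =
      m * δ * ((x * P) / a ^ 2 + Q / a) / W := by
    rw [tilt_eq]
    show Y2 / W - _ = _
    have hY : Y = (x * W + m * δ * P) / a := by field_simp; linarith
    have hY2 : Y2 = (x * Y + δ * W + m * δ * Q) / a := by field_simp; linarith
    rw [hY2, hY]
    field_simp
    ring
  rw [key, tilt_eq, abs_div, abs_mul, abs_of_nonneg (mul_nonneg hm.le hδ),
    abs_of_pos hpos, div_le_iff₀ hpos]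
  have hle : |x * P / a ^ 2 + Q / a| ≤ |x * P| + |Q| := by
    refine (abs_add_le _ _).trans (add_le_add ?_ ?_)
    · rw [abs_div, abs_of_nonneg (sq_nonneg a)]
      exact div_le_self (abs_nonneg _) (one_le_pow₀ ha1)
    · rw [abs_div, abs_of_pos (zero_lt_one.trans_le ha1)]
      exact div_le_self (abs_nonneg _) ha1
  refine (mul_le_mul (mul_le_of_le_one_left hδ hm1) (hle.trans hbd) (abs_nonneg _) hδ).trans_eq ?_
  show _ = δ * (l * x ^ 2 / 2 + (∫ g, w g *
    (l / 2 * (x + s * g) ^ 2 + (F' (x + s * g) + u * (x + s * g)) ^ 2 / l) ∂gaussianReal 0 1) / W) * W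
  generalize ∫ g, w g *
    (l / 2 * (x + s * g) ^ 2 + (F' (x + s * g) + u * (x + s * g)) ^ 2 / l) ∂gaussianReal 0 1 = T
  field_simp

end Vale.Agent.P166.NW.Gap
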